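import Vale.Agent.P227.M.ID16.Ibp

/-! # P227/M/ID16: pointwise calculus of `ψ`, `τ` at points of differentiability -/

open MeasureTheory Filter Set
open scoped NNReal Topology

namespace Vale.Agent.P227.M.ID16

variable {n : ℕ}

section Det
open Finset in
lemma id16_det_sum {ι : Type*} [Fintype ι] [DecidableEq ι] (X Y : Matrix ι ι ℝ) :
    ∑ σ : Equiv.Perm ι, ((Equiv.Perm.sign σ : ℤ) : ℝ) *
      ∑ i, (∏ j ∈ univ.erase i, X (σ j) j) * Y (σ i) i =
      (X.adjugate * Y).trace := by
  simp only [Finset.mul_sum]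
  rw [Finset.sum_comm]
  rw [Matrix.trace]
  refine Finset.sum_congr rfl fun i _ => ?_
  have h1 : (X.adjugate * Y).diag i = (X.updateCol i (fun j => Y j i)).det := by
    rw [← Matrix.cramer_apply, Matrix.cramer_eq_adjugate_mulVec]
    simp [Matrix.mul_apply, Matrix.mulVec, dotProduct, Matrix.diag]
  rw [h1, Matrix.det_apply']
  refine Finset.sum_congr rfl fun σ _ => ?_
  have : ∏ k, (X.updateCol i (fun j => Y j i)) (σ k) k =
      (∏ j ∈ univ.erase i, X (σ j) j) * Y (σ i) i := by
    rw [← Finset.prod_erase_mul univ _ (Finset.mem_univ i)]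
    congr 1
    · refine Finset.prod_congr rfl fun j hj => ?_
      rw [Matrix.updateCol_ne (Finset.ne_of_mem_erase hj)]
    · simp
  rw [this]

lemma id16_log_det {ι : Type*} [Fintype ι] [DecidableEq ι] {M : ℝ → Matrix ι ι ℝ}
    {M' : Matrix ι ι ℝ} {t : ℝ} (hM : ∀ i j, HasDerivAt (fun s => M s i j) (M' i j) t)
    (h : (M t).det ≠ 0) :
    HasDerivAt (fun x => Real.log (M x).det) ((M t)⁻¹ * M').trace t := by
  have h0 : HasDerivAt (fun x => (M x).det) ((M t).adjugate * M').trace t := by
    rw [← id16_det_sum]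
    simp only [Matrix.det_apply']
    refine HasDerivAt.fun_sum fun σ _ => ?_
    have h := HasDerivAt.fun_finsetProd (u := (Finset.univ : Finset ι)) (x := t)
      (f := fun i x => M x (σ i) i) (f' := fun i => M' (σ i) i) (fun i _ => hM (σ i) i)
    simp only [smul_eq_mul] at h
    exact h.const_mul _
  have h1 := h0.log h
  convert h1 using 1
  rw [Matrix.inv_def, Matrix.smul_mul, Matrix.trace_smul, Ring.inverse_eq_inv', smul_eq_mul]
  field_simp
end Det

theorem hl {f : E n → ℝ} {x : E n} (h : DifferentiableAt ℝ f x) (b : Fin n) :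
    HasDerivAt (fun t : ℝ => f (x + t • ei b)) (pd b f x) 0 :=
  h.hasFDerivAt.hasLineDerivAt (ei b)

theorem euclid_sum (v : E n) : v = ∑ i, v i • ei i := by
  ext j
  simp only [ei, WithLp.ofLp_sum, WithLp.ofLp_smul, Finset.sum_apply, Pi.smul_apply, smul_eq_mul]
  rw [Finset.sum_eq_single j] <;> simp +contextual [eq_comm]

/-- the second derivatives are symmetric at points of differentiability of the first derivatives -/
theorem pd_symm {g : E n → ℝ} (hg : Differentiable ℝ g) {x : E n}
    (h : ∀ i, DifferentiableAt ℝ (pd i g) x) (i k : Fin n) : pd k (pd i g) x = pd i (pd k g) x := by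
  let P : Fin n → (E n →L[ℝ] ℝ) := fun i => EuclideanSpace.proj i
  have hrep : ∀ z, fderiv ℝ g z = ∑ i, pd i g z • P i := by
    intro z
    ext v
    conv_lhs => rw [euclid_sum v]
    simp [map_sum, pd, P, mul_comm]
  have hd : HasFDerivAt (fderiv ℝ g) (∑ i, (fderiv ℝ (pd i g) x).smulRight (P i)) x := by
    have : fderiv ℝ g = fun z => ∑ i, pd i g z • P i := funext hrep
    rw [this]
    refine HasFDerivAt.fun_sum fun i _ => ?_
    exact (h i).hasFDerivAt.smul_const (P i)
  have hs := second_derivative_symmetric (fun y => (hg y).hasFDerivAt) hd (ei k) (ei i)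
  have hP : ∀ a b : Fin n, P a (ei b) = if a = b then 1 else 0 := by
    intro a b
    simp [P, ei, PiLp.single_apply]
  simp only [ContinuousLinearMap.coe_sum', Finset.sum_apply, ContinuousLinearMap.smulRight_apply,
    ContinuousLinearMap.smul_apply, hP, smul_eq_mul, mul_ite, mul_one, mul_zero] at hs
  simpa [pd] using hs

section rules
variable {f g : E n → ℝ} {x : E n}

theorem pd_add (hf : DifferentiableAt ℝ f x) (hg : DifferentiableAt ℝ g x) (a : Fin n) :
    pd a (fun z => f z + g z) x = pd a f x + pd a g x := by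
  unfold pd
  rw [fderiv_fun_add hf hg]
  rfl

theorem pd_sub (hf : DifferentiableAt ℝ f x) (hg : DifferentiableAt ℝ g x) (a : Fin n) :
    pd a (fun z => f z - g z) x = pd a f x - pd a g x := by
  unfold pd
  rw [fderiv_fun_sub hf hg]
  rfl

theorem pd_mul (hf : DifferentiableAt ℝ f x) (hg : DifferentiableAt ℝ g x) (a : Fin n) :
    pd a (fun z => f z * g z) x = pd a f x * g x + f x * pd a g x := by
  unfold pd
  rw [fderiv_fun_mul hf hg]
  simp
  ring

theorem pd_neg (a : Fin n) : pd a (fun z => - f z) x = - pd a f x := by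
  unfold pd
  rw [fderiv_fun_neg]
  rfl

theorem pd_const (c : ℝ) (a : Fin n) : pd a (fun _ : E n => c) x = 0 := by
  simp [pd]

theorem pd_sum {ι : Type*} (s : Finset ι) {f : ι → E n → ℝ} (hf : ∀ i ∈ s, DifferentiableAt ℝ (f i) x)
    (a : Fin n) : pd a (fun z => ∑ i ∈ s, f i z) x = ∑ i ∈ s, pd a (f i) x := by
  unfold pd
  rw [fderiv_fun_sum hf]
  simp

theorem pd_exp (hf : DifferentiableAt ℝ f x) (a : Fin n) :
    pd a (fun z => Real.exp (f z)) x = Real.exp (f x) * pd a f x := by
  unfold pd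
  rw [fderiv_exp hf]
  simp

theorem pd_coord (i a : Fin n) : pd a (fun z : E n => z i) x = if i = a then 1 else 0 := by
  unfold pd
  have : HasFDerivAt (fun z : E n => z i) (EuclideanSpace.proj i : E n →L[ℝ] ℝ) x :=
    (EuclideanSpace.proj i : E n →L[ℝ] ℝ).hasFDerivAt
  rw [this.fderiv]
  simp [ei, PiLp.single_apply]

theorem diff_coord (i : Fin n) : DifferentiableAt ℝ (fun z : E n => z i) x :=
  (EuclideanSpace.proj i : E n →L[ℝ] ℝ).differentiableAt

end rules

section MMfacts

variable {ψ V : E n → ℝ} {c C M : ℝ}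

theorem contDiff_pd {f : E n → ℝ} {k : ℕ∞} (hf : ContDiff ℝ (k + 1 : ℕ∞) f) (a : Fin n) : ContDiff ℝ k (pd a f) := by
  unfold pd
  exact (hf.fderiv_right (m := (k : WithTop ℕ∞)) (by simp)).clm_apply contDiff_const

theorem contDiff_pd_top {f : E n → ℝ} (hf : ContDiff ℝ (⊤ : ℕ∞) f) (a : Fin n) : ContDiff ℝ (⊤ : ℕ∞) (pd a f) := by
  unfold pd
  exact (hf.fderiv_right (m := ((⊤ : ℕ∞) : WithTop ℕ∞)) (by simp)).clm_apply contDiff_const

theorem MM.diff_pd (h : MM ψ V c C M) (a : Fin n) : Differentiable ℝ (pd a ψ) := by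
  have h1 : ContDiff ℝ ((1 + 1 : ℕ∞)) ψ := by
    have := h.C2
    norm_num
    exact this
  exact (contDiff_pd (k := 1) h1 a).differentiable (by norm_num)

theorem MM.cont_hess (h : MM ψ V c C M) (i j : Fin n) : Continuous (fun x => hess ψ x i j) := by
  have h1 : ContDiff ℝ ((1 + 1 : ℕ∞)) ψ := by
    have := h.C2
    norm_num
    exact this
  have h2 := contDiff_pd (k := 1) h1 j
  have h3 : ContDiff ℝ ((0 + 1 : ℕ∞)) (pd j ψ) := by
    norm_num
    exact h2
  exact (contDiff_pd (k := 0) h3 i).continuous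

theorem MM.symm (h : MM ψ V c C M) (x : E n) (i j : Fin n) : hess ψ x i j = hess ψ x j i := by
  unfold hess
  exact pd_symm (h.C2.differentiable (by norm_num)) (fun i => (MM.diff_pd h i) x) j i

theorem MM.lbσ (h : MM ψ V c C M) (i j : Fin n) : LB (fun x => hess ψ x i j) := by
  refine LB.of_lip (K := Real.toNNReal M) ?_
  refine LipschitzWith.of_dist_le_mul fun x y => ?_
  rw [Real.dist_eq, dist_eq_norm]
  refine (h.lip i j x y).trans ?_
  gcongr
  exact Real.le_coe_toNNReal M

end MMfacts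

end Vale.Agent.P227.M.ID16
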