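import Vale.Agent.P227.M.ID16.Lip

/-! # P227/M/ID16: integration by parts (P0), (P1) -/

open MeasureTheory Filter Set
open scoped NNReal Topology

namespace Vale.Agent.P227.M.ID16

variable {n : ℕ}

theorem ae_lineDeriv {f : E n → ℝ} (hf : LB f) (a : Fin n) :
    (fun x => lineDeriv ℝ f x (ei a)) =ᵐ[volume] pd a f := by
  filter_upwards [hf.ae_diff] with x hx
  exact hx.lineDeriv_eq_fderiv

theorem ae_lineDeriv_neg {f : E n → ℝ} (hf : LB f) (a : Fin n) :
    (fun x => lineDeriv ℝ f x (-(ei a))) =ᵐ[volume] fun x => - pd a f x := by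
  filter_upwards [hf.ae_diff] with x hx
  rw [hx.lineDeriv_eq_fderiv]
  simp [pd]

/-- (P0) -/
theorem integral_pd {f : E n → ℝ} (hf : LC f) (a : Fin n) : ∫ x, pd a f x = 0 := by
  obtain ⟨K, hK⟩ := hf.lipschitz
  have h := LipschitzWith.integral_lineDeriv_mul_eq (μ := (volume : Measure (E n)))
    (LipschitzWith.const (1 : ℝ)) hK hf.2 (-(ei a))
  have h1 : ∀ x, lineDeriv ℝ (fun _ : E n => (1 : ℝ)) x (-(ei a)) = 0 := fun x => by
    simp [lineDeriv]
  simp only [h1, zero_mul, integral_zero, neg_neg, mul_one] at h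
  rw [integral_congr_ae (ae_lineDeriv hf.1 a)] at h
  exact h.symm

/-- IBP for `f` globally Lipschitz and `g` Lipschitz with compact support -/
theorem integral_pd_mul {f g : E n → ℝ} {K : ℝ≥0} (hf : LipschitzWith K f) (hg : LC g) (a : Fin n) :
    ∫ x, pd a f x * g x = - ∫ x, f x * pd a g x := by
  obtain ⟨L, hL⟩ := hg.lipschitz
  have h := LipschitzWith.integral_lineDeriv_mul_eq (μ := (volume : Measure (E n))) hf hL hg.2 (ei a)
  have h1 : ∫ x, lineDeriv ℝ f x (ei a) * g x = ∫ x, pd a f x * g x := by
    refine integral_congr_ae ?_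
    filter_upwards [ae_lineDeriv (LB.of_lip hf) a] with x hx
    rw [hx]
  have h2 : ∫ x, lineDeriv ℝ g x (-(ei a)) * f x = - ∫ x, f x * pd a g x := by
    rw [← integral_neg]
    refine integral_congr_ae ?_
    filter_upwards [ae_lineDeriv_neg hg.1 a] with x hx
    rw [hx]
    ring
  rw [← h1, h, h2]

/-- (P1): mixed second derivatives of Lipschitz functions -/
theorem integral_pd_pd {g h : E n → ℝ} (hg : LC g) (hh : LC h) (c d : Fin n) :
    ∫ x, pd c g x * pd d h x = ∫ x, pd d g x * pd c h x := by
  obtain ⟨K, hK⟩ := hg.lipschitz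
  obtain ⟨L, hL⟩ := hh.lipschitz
  have A := LipschitzWith.integral_inv_smul_sub_mul_tendsto_integral_lineDeriv_mul
    (μ := (volume : Measure (E n))) hL (hg.pd c).integrable (ei d)
  have B := LipschitzWith.integral_inv_smul_sub_mul_tendsto_integral_lineDeriv_mul
    (μ := (volume : Measure (E n))) hK (hh.pd c).integrable (-(ei d))
  have hA : ∫ x, lineDeriv ℝ h x (ei d) * pd c g x = ∫ x, pd c g x * pd d h x := by
    refine integral_congr_ae ?_
    filter_upwards [ae_lineDeriv hh.1 d] with x hx
    rw [hx]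
    ring
  have hB : ∫ x, lineDeriv ℝ g x (-(ei d)) * pd c h x = - ∫ x, pd d g x * pd c h x := by
    rw [← integral_neg]
    refine integral_congr_ae ?_
    filter_upwards [ae_lineDeriv_neg hg.1 d] with x hx
    rw [hx]
    ring
  rw [hA] at A
  rw [hB] at B
  have key : ∀ t : ℝ, ∫ x, (t⁻¹ • (h (x + t • ei d) - h x)) * pd c g x
      = - ∫ x, (t⁻¹ • (g (x + t • (-(ei d))) - g x)) * pd c h x := by
    intro t
    -- translate
    have hsh : LipschitzWith L (fun x : E n => h (x + t • ei d)) := by
      have := hL.comp ((LipschitzWith.id (α := E n)).add (LipschitzWith.const (t • ei d)))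
      simpa [Function.comp_def] using this
    have hpdsh : ∀ x, pd c (fun x : E n => h (x + t • ei d)) x = pd c h (x + t • ei d) := by
      intro x
      unfold pd
      rw [fderiv_comp_add_right]
    have e1 := integral_pd_mul hsh hg c
    have e2 := integral_pd_mul hL hg c
    simp only [hpdsh] at e1
    have e3 : ∫ x, pd c h (x + t • ei d) * g x = ∫ x, pd c h x * g (x + t • (-(ei d))) := by
      rw [← integral_add_right_eq_self (fun x => pd c h (x + t • ei d) * g x) (t • (-(ei d)))]
      simp
    have i1 : Integrable (fun x => h (x + t • ei d) * pd c g x) :=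
      ((LB.of_lip hsh).lm.mul_bc (hg.pd c)).integrable
    have i2 : Integrable (fun x => h x * pd c g x) := (hh.1.lm.mul_bc (hg.pd c)).integrable
    have hgsh : LB (fun x : E n => g (x + t • (-(ei d)))) := by
      have := hK.comp ((LipschitzWith.id (α := E n)).add (LipschitzWith.const (t • (-(ei d)))))
      exact LB.of_lip (K := K * (1 + 0)) (by simpa [Function.comp_def] using this)
    have i3 : Integrable (fun x => g (x + t • (-(ei d))) * pd c h x) :=
      (hgsh.lm.mul_bc (hh.pd c)).integrable
    have i4 : Integrable (fun x => g x * pd c h x) := (hg.1.lm.mul_bc (hh.pd c)).integrable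
    have l1 : ∫ x, (t⁻¹ • (h (x + t • ei d) - h x)) * pd c g x
        = t⁻¹ * ((∫ x, h (x + t • ei d) * pd c g x) - ∫ x, h x * pd c g x) := by
      rw [← integral_sub i1 i2, ← integral_const_mul]
      refine integral_congr_ae (Filter.Eventually.of_forall fun x => ?_)
      simp only [smul_eq_mul]
      ring
    have l2 : ∫ x, (t⁻¹ • (g (x + t • (-(ei d))) - g x)) * pd c h x
        = t⁻¹ * ((∫ x, g (x + t • (-(ei d))) * pd c h x) - ∫ x, g x * pd c h x) := by
      rw [← integral_sub i3 i4, ← integral_const_mul]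
      refine integral_congr_ae (Filter.Eventually.of_forall fun x => ?_)
      simp only [smul_eq_mul]
      ring
    rw [l1, l2]
    have e4 : ∫ x, pd c h x * g (x + t • (-(ei d))) = ∫ x, g (x + t • (-(ei d))) * pd c h x := by
      simp_rw [mul_comm]
    have e5 : ∫ x, pd c h x * g x = ∫ x, g x * pd c h x := by simp_rw [mul_comm]
    rw [e3, e4] at e1
    rw [e5] at e2
    rw [e1, e2]
    ring
  have B' := B.neg
  rw [neg_neg] at B'
  refine tendsto_nhds_unique A ?_
  refine B'.congr fun t => ?_
  rw [key t]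

end Vale.Agent.P227.M.ID16
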