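import Vale.Agent.P227.M.ID16.Pt

/-! # P227/M/ID16: the key inequality -/

open MeasureTheory Filter Set
open scoped NNReal Topology

namespace Vale.Agent.P227.M.ID16

variable {n : ℕ} {ψ V : E n → ℝ} {c C M : ℝ} {F u : E n → ℝ}

theorem T1_eq (h : MM ψ V c C M) (hV : ContDiff ℝ (⊤ : ℕ∞) V) (hu : Test u) :
    I V (fun x => (Lop ψ u x) ^ 2) =
      (∑ i, ∑ j, I V (fun x => pd j (fld ψ u i) x * pd i (fld ψ u j) x))
        + ∑ i, ∑ j, I V (fun x => hess V x j i * (fld ψ u i x * fld ψ u j x)) := by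
  have e1 : I V (fun x => (Lop ψ u x) ^ 2) =
      I V (fun x => ∑ i, ∑ j, ds V i (fld ψ u i) x * ds V j (fld ψ u j) x) := by
    refine I_congr ?_
    filter_upwards [MM.good h] with x hx
    rw [Lop_eq h (diff_top hV) hx hu, sq, Finset.sum_mul_sum]
  have hbc : ∀ i j, BC (fun x => ds V i (fld ψ u i) x * ds V j (fld ψ u j) x) := fun i j =>
    (ds_bc hV (fld_lc h hu i) i).mul_lm (ds_bc hV (fld_lc h hu j) j).1
  rw [e1, I_sum hV _ (fun i _ => BC.sum _ fun j _ => hbc i j), ← Finset.sum_add_distrib]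
  refine Finset.sum_congr rfl fun i _ => ?_
  rw [I_sum hV _ (fun j _ => hbc i j), ← Finset.sum_add_distrib]
  refine Finset.sum_congr rfl fun j _ => ?_
  exact BP3 hV (fld_lc h hu i) (fld_lc h hu j) i j

theorem T2_eq (h : MM ψ V c C M) (hV : ContDiff ℝ (⊤ : ℕ∞) V) (hF : Test F) (hu : Test u) :
    I V (fun x => ∑ b, fld ψ (fun z => Lop ψ F z + F z + u z) b x * Lop ψ (pd b F) x) =
      (∑ b, ∑ i, ∑ j, I V (fun x => pd j (Kf ψ F i b) x * pd i (Uf ψ F j b) x))
        + (∑ b, ∑ i, ∑ j, I V (fun x => hess V x j i * (Kf ψ F i b x * Uf ψ F j b x)))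
        - ∑ b, ∑ j, I V (fun x => pd j (fld ψ u b) x * Uf ψ F j b x) := by
  have hK := fun i b => Kf_lc h hF i b
  have hU := fun i b => Uf_lc h hF i b
  have hs := fun b => fld_lc h hu b
  have e1 : I V (fun x => ∑ b, fld ψ (fun z => Lop ψ F z + F z + u z) b x * Lop ψ (pd b F) x) =
      I V (fun x => ∑ b, ((∑ i, ∑ j, ds V i (Kf ψ F i b) x * ds V j (Uf ψ F j b) x)
        + ∑ j, fld ψ u b x * ds V j (Uf ψ F j b) x)) := by
    refine I_congr ?_
    filter_upwards [MM.good h] with x hx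
    refine Finset.sum_congr rfl fun b _ => ?_
    rw [fld_h_eq h (diff_top hV) hx hF hu b]
    have h1 : Lop ψ (pd b F) x = ∑ j, ds V j (Uf ψ F j b) x := Lop_eq h (diff_top hV) hx (test_pd hF b)
    rw [h1, add_mul, Finset.sum_mul_sum, Finset.mul_sum]
  have b1 : ∀ b i j, BC (fun x => ds V i (Kf ψ F i b) x * ds V j (Uf ψ F j b) x) := fun b i j =>
    (ds_bc hV (hK i b) i).mul_lm (ds_bc hV (hU j b) j).1
  have b2 : ∀ b j, BC (fun x => fld ψ u b x * ds V j (Uf ψ F j b) x) := fun b j =>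
    (hs b).bc.mul_lm (ds_bc hV (hU j b) j).1
  have e2 : ∀ b j, I V (fun x => fld ψ u b x * ds V j (Uf ψ F j b) x)
      = - I V (fun x => pd j (fld ψ u b) x * Uf ψ F j b x) := by
    intro b j
    have h0 := BP0 hV ((hs b).mul_lb (hU j b).1) j
    have h1 : I V (ds V j (fun x => fld ψ u b x * Uf ψ F j b x)) =
        I V (fun x => pd j (fld ψ u b) x * Uf ψ F j b x) + I V (fun x => fld ψ u b x * ds V j (Uf ψ F j b) x) := by
      rw [← I_add hV (((hs b).pd j).mul_lm (hU j b).1.lm) (b2 b j)]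
      refine I_congr ?_
      filter_upwards [MM.good h] with x hx
      unfold ds
      rw [pd_mul (fld_diff hx hu b) (Uf_diff hx hF j b)]
      ring
    linarith
  rw [e1, I_sum hV _ (fun b _ => (BC.sum _ fun i _ => BC.sum _ fun j _ => b1 b i j).add (BC.sum _ fun j _ => b2 b j)),
    ← Finset.sum_add_distrib, ← Finset.sum_sub_distrib]
  refine Finset.sum_congr rfl fun b _ => ?_
  rw [I_add hV (BC.sum _ fun i _ => BC.sum _ fun j _ => b1 b i j) (BC.sum _ fun j _ => b2 b j),
    I_sum hV _ (fun i _ => BC.sum _ fun j _ => b1 b i j), I_sum hV _ (fun j _ => b2 b j)]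
  simp only [e2, Finset.sum_neg_distrib]
  have e3 : ∀ i, I V (fun x => ∑ j, ds V i (Kf ψ F i b) x * ds V j (Uf ψ F j b) x)
      = (∑ j, I V (fun x => pd j (Kf ψ F i b) x * pd i (Uf ψ F j b) x))
        + ∑ j, I V (fun x => hess V x j i * (Kf ψ F i b x * Uf ψ F j b x)) := by
    intro i
    rw [I_sum hV _ (fun j _ => b1 b i j), ← Finset.sum_add_distrib]
    refine Finset.sum_congr rfl fun j _ => ?_
    exact BP3 hV (hK i b) (hU j b) i j
  simp only [e3, Finset.sum_add_distrib]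
  ring

/-- pointwise matrices at `x` -/
theorem Uf_mat (ψ F : E n → ℝ) (x : E n) :
    (Matrix.of fun i j => Uf ψ F i j x) = tau ψ x * hess F x := by
  ext i j
  rw [Matrix.mul_apply]
  rfl

theorem trace_eq1 (h : MM ψ V c C M) (hF : Test F) (x : E n) :
    (hess V x * tau ψ x * hess F x * tau ψ x * hess F x * tau ψ x).trace
      = ∑ b, ∑ i, ∑ j, hess V x j i * (Kf ψ F i b x * Uf ψ F j b x) := by
  have hNt : (hess F x).transpose = hess F x := by
    ext i j
    exact hess_symm hF.1 x j i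
  have hK : (Matrix.of fun i b => Kf ψ F i b x) = tau ψ x * hess F x * tau ψ x := by
    rw [← Uf_mat]
    ext i j
    rw [Matrix.mul_apply]
    rfl
  have hUt : (Matrix.of fun i j => Uf ψ F i j x).transpose = hess F x * tau ψ x := by
    rw [Uf_mat, Matrix.transpose_mul, hNt, MM.τsymmM h]
  have e1 : hess V x * tau ψ x * hess F x * tau ψ x * hess F x * tau ψ x =
      hess V x * ((Matrix.of fun i b => Kf ψ F i b x) * (Matrix.of fun i j => Uf ψ F i j x).transpose) := by
    rw [hK, hUt]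
    simp only [Matrix.mul_assoc]
  rw [e1, Matrix.trace]
  simp only [Matrix.diag_apply, Matrix.mul_apply, Matrix.transpose_apply, Matrix.of_apply, Finset.mul_sum]
  -- ∑ j ∑ i ∑ b
  rw [Finset.sum_comm]
  have : ∀ i : Fin n, ∑ j, ∑ b, hess V x j i * (Kf ψ F i b x * Uf ψ F j b x)
      = ∑ b, ∑ j, hess V x j i * (Kf ψ F i b x * Uf ψ F j b x) := fun i => Finset.sum_comm
  simp only [this]
  rw [Finset.sum_comm]

theorem trace_eq2 (h : MM ψ V c C M) (hF : Test F) (x : E n) :
    (hess V x * tau ψ x * hess F x * tau ψ x * hess F x * tau ψ x).trace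
      = ∑ k, ∑ i, ∑ j, hess V x k i * (tau ψ x i j * Wf ψ F j k x) := by
  have hNt : (hess F x).transpose = hess F x := by
    ext i j
    exact hess_symm hF.1 x j i
  have hUt : (Matrix.of fun i j => Uf ψ F i j x).transpose = hess F x * tau ψ x := by
    rw [Uf_mat, Matrix.transpose_mul, hNt, MM.τsymmM h]
  have hW : (Matrix.of fun i j => Wf ψ F i j x) = hess F x * tau ψ x * (hess F x * tau ψ x) := by
    rw [← hUt]
    ext i j
    rw [Matrix.mul_apply]
    rfl
  have e1 : hess V x * tau ψ x * hess F x * tau ψ x * hess F x * tau ψ x =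
      hess V x * (tau ψ x * (Matrix.of fun i j => Wf ψ F i j x)) := by
    rw [hW]
    simp only [Matrix.mul_assoc]
  rw [e1, Matrix.trace]
  simp only [Matrix.diag_apply, Matrix.mul_apply, Matrix.of_apply, Finset.mul_sum]

/-- (BPH) -/
theorem T3_eq (h : MM ψ V c C M) (hV : ContDiff ℝ (⊤ : ℕ∞) V) (hF : Test F) :
    (∑ k, ∑ i, ∑ j, I V (fun x => hess V x k i * (tau ψ x i j * Wf ψ F j k x)))
      = (∑ j, I V (Wf ψ F j j)) - ∑ k, ∑ i, ∑ j, I V (fun x => dt ψ x k i j * pd i (Wf ψ F j k) x) := by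
  have hW := fun i j => Wf_lc h hF i j
  have hτ := fun i j => MM.lbτ h i j
  have hdt : ∀ k i j, LM (fun x => dt ψ x k i j) := fun k i j => (hτ i j).pd_lm k
  have hWd : ∀ x, Good ψ x → ∀ i j, DifferentiableAt ℝ (Wf ψ F i j) x := fun x hx i j =>
    DifferentiableAt.fun_sum fun l _ => (Uf_diff hx hF l i).fun_mul (Uf_diff hx hF j l)
  -- step 1
  have s1 : ∀ k i j, I V (fun x => hess V x k i * (tau ψ x i j * Wf ψ F j k x)) =
      - I V (fun x => pd i V x * (dt ψ x k i j * Wf ψ F j k x))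
      - I V (fun x => (tau ψ x j i * pd i V x) * ds V k (Wf ψ F j k) x) := by
    intro k i j
    have h0 := BP0 hV ((lb_pdV hV i).mul_lc ((hτ i j).mul_lc (hW j k))) k
    have b1 : BC (fun x => hess V x k i * (tau ψ x i j * Wf ψ F j k x)) :=
      (lb_hessV hV k i).lm.mul_bc ((hτ i j).mul_lc (hW j k)).bc
    have b2 : BC (fun x => pd i V x * (dt ψ x k i j * Wf ψ F j k x)) :=
      (lb_pdV hV i).lm.mul_bc ((hdt k i j).mul_bc (hW j k).bc)
    have b3 : BC (fun x => (tau ψ x j i * pd i V x) * ds V k (Wf ψ F j k) x) :=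
      ((hτ j i).mul (lb_pdV hV i)).lm.mul_bc (ds_bc hV (hW j k) k)
    have h1 : I V (ds V k (fun x => pd i V x * (tau ψ x i j * Wf ψ F j k x))) =
        I V (fun x => hess V x k i * (tau ψ x i j * Wf ψ F j k x))
        + I V (fun x => pd i V x * (dt ψ x k i j * Wf ψ F j k x))
        + I V (fun x => (tau ψ x j i * pd i V x) * ds V k (Wf ψ F j k) x) := by
      rw [← I_add hV b1 b2, ← I_add hV (b1.add b2) b3]
      refine I_congr ?_
      filter_upwards [MM.good h] with x hx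
      have hd : DifferentiableAt ℝ (pd i V) x := diff_top (contDiff_pd_top hV i) x
      have hdτ := hx.dτ i j
      have hdW := hWd x hx j k
      unfold ds
      rw [pd_mul hd (hdτ.fun_mul hdW), pd_mul hdτ hdW, MM.τsymm h x j i]
      unfold dt hess
      ring
    linarith
  -- step 2: sum over i of the second term
  have s2 : ∀ k j, ∑ i, I V (fun x => (tau ψ x j i * pd i V x) * ds V k (Wf ψ F j k) x) =
      I V (fun x => x j * ds V k (Wf ψ F j k) x) + ∑ i, I V (fun x => dt ψ x i i j * ds V k (Wf ψ F j k) x) := by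
    intro k j
    have b3 : ∀ i, BC (fun x => (tau ψ x j i * pd i V x) * ds V k (Wf ψ F j k) x) := fun i =>
      ((hτ j i).mul (lb_pdV hV i)).lm.mul_bc (ds_bc hV (hW j k) k)
    have hx : LM (fun x : E n => x j) :=
      (LB.of_contDiff (f := fun x : E n => x j) (EuclideanSpace.proj j : E n →L[ℝ] ℝ).contDiff).lm
    have b4 : BC (fun x => x j * ds V k (Wf ψ F j k) x) := hx.mul_bc (ds_bc hV (hW j k) k)
    have b5 : ∀ i, BC (fun x => dt ψ x i i j * ds V k (Wf ψ F j k) x) := fun i =>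
      (hdt i i j).mul_bc (ds_bc hV (hW j k) k)
    rw [← I_sum hV _ (fun i _ => b3 i), ← I_sum hV _ (fun i _ => b5 i), ← I_add hV b4 (BC.sum _ fun i _ => b5 i)]
    refine I_congr ?_
    filter_upwards [MM.good h] with x hx
    have hdv := div_tau h (diff_top hV) hx j
    rw [Finset.sum_sub_distrib] at hdv
    rw [← Finset.sum_mul, ← Finset.sum_mul, ← add_mul]
    congr 1
    have : ∑ i, dt ψ x i i j = ∑ i, dt ψ x i j i := Finset.sum_congr rfl fun i _ => dt_symm h x i i j
    rw [this]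
    linarith
  -- step 3
  have s3 : ∀ k j, I V (fun x => x j * ds V k (Wf ψ F j k) x) = - (if j = k then I V (Wf ψ F j k) else 0) := by
    intro k j
    have hx : LB (fun x : E n => x j) :=
      LB.of_contDiff (f := fun x : E n => x j) (EuclideanSpace.proj j : E n →L[ℝ] ℝ).contDiff
    have h0 := BP0 hV (hx.mul_lc (hW j k)) k
    have h1 : I V (ds V k (fun x : E n => x j * Wf ψ F j k x)) =
        (if j = k then I V (Wf ψ F j k) else 0) + I V (fun x => x j * ds V k (Wf ψ F j k) x) := by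
      have e : (if j = k then I V (Wf ψ F j k) else 0) = I V (fun x => (if j = k then 1 else 0) * Wf ψ F j k x) := by
        rw [I_cmul]
        split_ifs <;> simp
      rw [e, ← I_add hV ((LM.const _).mul_bc (hW j k).bc) (hx.lm.mul_bc (ds_bc hV (hW j k) k))]
      refine I_congr ?_
      filter_upwards [MM.good h] with x hx'
      unfold ds
      rw [pd_mul (diff_coord j) (hWd x hx' j k), pd_coord]
      ring
    linarith
  -- step 4
  have s4 : ∀ k i j, I V (fun x => dt ψ x i i j * ds V k (Wf ψ F j k) x) =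
      I V (fun x => dt ψ x k i j * pd i (Wf ψ F j k) x) - I V (fun x => pd i V x * (dt ψ x k i j * Wf ψ F j k x)) := by
    intro k i j
    have h1 : I V (fun x => dt ψ x i i j * ds V k (Wf ψ F j k) x) =
        I V (fun x => dt ψ x k i j * ds V i (Wf ψ F j k) x) := BP2 hV (hτ i j) (hW j k) i k
    rw [h1, ← I_sub hV ((hdt k i j).mul_bc ((hW j k).pd i)) ((lb_pdV hV i).lm.mul_bc ((hdt k i j).mul_bc (hW j k).bc))]
    refine congrArg _ (funext fun x => ?_)
    unfold ds
    ring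
  have s5 : ∀ k, ∑ i, ∑ j, I V (fun x => hess V x k i * (tau ψ x i j * Wf ψ F j k x)) =
      (∑ j, if j = k then I V (Wf ψ F j k) else 0)
        - ∑ i, ∑ j, I V (fun x => dt ψ x k i j * pd i (Wf ψ F j k) x) := by
    intro k
    simp only [s1, Finset.sum_sub_distrib, Finset.sum_neg_distrib]
    have e1 : ∑ i, ∑ j, I V (fun x => (tau ψ x j i * pd i V x) * ds V k (Wf ψ F j k) x) =
        ∑ j, (- (if j = k then I V (Wf ψ F j k) else 0)
          + ∑ i, (I V (fun x => dt ψ x k i j * pd i (Wf ψ F j k) x)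
            - I V (fun x => pd i V x * (dt ψ x k i j * Wf ψ F j k x)))) := by
      rw [Finset.sum_comm]
      refine Finset.sum_congr rfl fun j _ => ?_
      rw [s2 k j, s3 k j]
      simp only [s4]
    rw [e1]
    simp only [Finset.sum_add_distrib, Finset.sum_sub_distrib, Finset.sum_neg_distrib]
    have e2 : ∑ j, ∑ i, I V (fun x => dt ψ x k i j * pd i (Wf ψ F j k) x)
        = ∑ i, ∑ j, I V (fun x => dt ψ x k i j * pd i (Wf ψ F j k) x) := Finset.sum_comm
    have e3 : ∑ j, ∑ i, I V (fun x => pd i V x * (dt ψ x k i j * Wf ψ F j k x))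
        = ∑ i, ∑ j, I V (fun x => pd i V x * (dt ψ x k i j * Wf ψ F j k x)) := Finset.sum_comm
    rw [e2, e3]
    ring
  simp only [s5, Finset.sum_sub_distrib]
  congr 1
  rw [Finset.sum_comm]
  refine Finset.sum_congr rfl fun j _ => ?_
  simp

section
open scoped MatrixOrder ComplexOrder
theorem psd_root' (A : Matrix (Fin n) (Fin n) ℝ) (h : A.PosSemidef) :
    ∃ b : Matrix (Fin n) (Fin n) ℝ, A = b.transpose * b := by
  have h1 := h.nonneg
  rw [CStarAlgebra.nonneg_iff_eq_star_mul_self] at h1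
  obtain ⟨b, hb⟩ := h1
  exact ⟨b, by rw [hb, Matrix.star_eq_conjTranspose, Matrix.conjTranspose_eq_transpose_of_trivial]⟩
end

theorem psd_root (h : MM ψ V c C M) (x : E n) : ∃ b : Matrix (Fin n) (Fin n) ℝ, hess ψ x = b.transpose * b := by
  have hps : (hess ψ x).PosSemidef := by
    refine Matrix.PosSemidef.of_dotProduct_mulVec_nonneg ?_ fun v => ?_
    · rw [Matrix.IsHermitian, Matrix.conjTranspose_eq_transpose_of_trivial]
      exact MM.symmM h x
    · have h1 := h.lower x (WithLp.toLp 2 v)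
      rw [qf_eq] at h1
      have h2 : 0 ≤ c * ‖(WithLp.toLp 2 v : E n)‖ ^ 2 := mul_nonneg h.c_pos.le (sq_nonneg _)
      simpa using h2.trans h1
  exact psd_root' _ hps

theorem Qa_nonneg (h : MM ψ V c C M) (hF : Test F) (hu : Test u) {x : E n} (hx : Good ψ x) :
    0 ≤ (∑ i, ∑ j, pd j (fld ψ u i) x * pd i (fld ψ u j) x)
      - 2 * (∑ b, ∑ j, pd j (fld ψ u b) x * Uf ψ F j b x) + ∑ j, Wf ψ F j j x := by
  obtain ⟨b, hb⟩ := psd_root h x
  have key := QAlg.tr_sq_nonneg (tau ψ x) (hess ψ x) b (MM.τσ h x) hb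
    (Matrix.of fun j b => pd j (fld ψ u b) x - Uf ψ F b j x) ?_
  · refine key.trans (le_of_eq ?_)
    simp only [Matrix.of_apply]
    have e1 : ∀ i j, (pd i (fld ψ u j) x - Uf ψ F j i x) * (pd j (fld ψ u i) x - Uf ψ F i j x)
        = pd j (fld ψ u i) x * pd i (fld ψ u j) x - pd i (fld ψ u j) x * Uf ψ F i j x
          - pd j (fld ψ u i) x * Uf ψ F j i x + Uf ψ F j i x * Uf ψ F i j x := by
      intro i j
      ring
    simp only [e1, Finset.sum_add_distrib, Finset.sum_sub_distrib]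
    have e2 : ∑ i, ∑ j, pd i (fld ψ u j) x * Uf ψ F i j x = ∑ b, ∑ j, pd j (fld ψ u b) x * Uf ψ F j b x :=
      Finset.sum_comm
    have e3 : ∑ i, ∑ j, Uf ψ F j i x * Uf ψ F i j x = ∑ j, Wf ψ F j j x := rfl
    rw [e2, e3]
    ring
  · ext i k
    rw [Matrix.transpose_apply, Matrix.mul_apply, Matrix.mul_apply]
    simp only [Matrix.of_apply, mul_sub, Finset.sum_sub_distrib]
    congr 1
    · -- τ J symmetric
      have l : ∀ i k, ∑ j, tau ψ x i j * pd j (fld ψ u k) x =
          (∑ e, Φ ψ x i k e * pd e u x) + ∑ e, ∑ j, tau ψ x i j * (tau ψ x k e * hess u x j e) := by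
        intro i k
        simp only [pd_fld hx hu, Finset.mul_sum, mul_add, Finset.sum_add_distrib]
        congr 1
        · rw [Finset.sum_comm]
          refine Finset.sum_congr rfl fun e _ => ?_
          unfold Φ
          rw [Finset.sum_mul]
          refine Finset.sum_congr rfl fun j _ => by ring
        · rw [Finset.sum_comm]
      rw [l, l]
      congr 1
      · refine Finset.sum_congr rfl fun e _ => ?_
        rw [Φ_symm1 h hx k i e]
      · rw [Finset.sum_comm]
        refine Finset.sum_congr rfl fun e _ => Finset.sum_congr rfl fun j _ => ?_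
        rw [hess_symm hu.1 x e j]
        ring
    · unfold Uf
      simp only [Finset.mul_sum]
      rw [Finset.sum_comm]
      refine Finset.sum_congr rfl fun e _ => Finset.sum_congr rfl fun j _ => ?_
      rw [hess_symm hF.1 x e j]
      ring

theorem Qb_nonneg (h : MM ψ V c C M) (hF : Test F) {x : E n} (hx : Good ψ x) :
    0 ≤ 2 * (∑ b, ∑ i, ∑ j, pd j (Kf ψ F i b) x * pd i (Uf ψ F j b) x)
      - ∑ k, ∑ i, ∑ j, dt ψ x k i j * pd i (Wf ψ F j k) x := by
  obtain ⟨b, hb⟩ := psd_root h x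
  have key := QAlg.key_alg (tau ψ x) (hess ψ x) b (hess F x) (fun k i j => dt ψ x k i j)
    (fun k i j => Aj F x k i j) (MM.τsymmM h x) (MM.τσ h x) hb
    (by ext i j; exact hess_symm hF.1 x j i)
    (by funext i j k; exact dt_symm h x i k j)
    (by funext i j k; exact Aj_symm2 hF.1 x i k j)
    (by funext i j k; exact Aj_symm1 hF.1 x j i k)
    (by funext i j k; exact Φ_symm1 h hx j i k)
    (Matrix.of fun i j => Uf ψ F i j x) (Uf_mat ψ F x)
    (fun k i j => pd k (Uf ψ F i j) x) (fun k i j => pd k (Kf ψ F i j) x) (fun k i j => pd k (Wf ψ F i j) x)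
    (fun k i j => pd_Uf hx hF k i j) (fun k i j => pd_Kf hx hF k i j)
    (fun k i j => pd_Wf hx hF k i j)
  have e1 : ∑ b, ∑ i, ∑ j, pd j (Kf ψ F i b) x * pd i (Uf ψ F j b) x
      = ∑ i, ∑ j, ∑ b, pd j (Kf ψ F i b) x * pd i (Uf ψ F j b) x := by
    rw [Finset.sum_comm]
    exact Finset.sum_congr rfl fun i _ => Finset.sum_comm
  have e2 : ∑ k, ∑ i, ∑ j, dt ψ x k i j * pd i (Wf ψ F j k) x
      = ∑ i, ∑ j, ∑ k, dt ψ x k i j * pd i (Wf ψ F j k) x := by
    rw [Finset.sum_comm]
    exact Finset.sum_congr rfl fun i _ => Finset.sum_comm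
  rw [e1, e2]
  exact key

theorem key_I (h : MM ψ V c C M) (hV : ContDiff ℝ (⊤ : ℕ∞) V) (hF : Test F) (hu : Test u) :
    I V (fun x => (hess V x * tau ψ x * hess F x * tau ψ x * hess F x * tau ψ x).trace)
      + I V (fun x => ∑ a, ∑ b, hess V x a b * fld ψ u a x * fld ψ u b x)
      ≤ I V (fun x => (Lop ψ u x) ^ 2)
        + 2 * I V (fun x => ∑ b, fld ψ (fun z => Lop ψ F z + F z + u z) b x * Lop ψ (pd b F) x) := by
  have hK := fun i b => Kf_lc h hF i b
  have hU := fun i b => Uf_lc h hF i b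
  have hs := fun b => fld_lc h hu b
  have hW := fun i j => Wf_lc h hF i j
  have hτ := fun i j => MM.lbτ h i j
  have hdt : ∀ k i j, LM (fun x => dt ψ x k i j) := fun k i j => (hτ i j).pd_lm k
  have t1 := T1_eq h hV hu
  have t2 := T2_eq h hV hF hu
  have t3 := T3_eq h hV hF
  have bH : ∀ b i j, BC (fun x => hess V x j i * (Kf ψ F i b x * Uf ψ F j b x)) := fun b i j =>
    (lb_hessV hV j i).lm.mul_bc ((hK i b).mul_lb (hU j b).1).bc
  have bH2 : ∀ k i j, BC (fun x => hess V x k i * (tau ψ x i j * Wf ψ F j k x)) := fun k i j =>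
    (lb_hessV hV k i).lm.mul_bc ((hτ i j).mul_lc (hW j k)).bc
  have t4 : I V (fun x => (hess V x * tau ψ x * hess F x * tau ψ x * hess F x * tau ψ x).trace)
      = ∑ b, ∑ i, ∑ j, I V (fun x => hess V x j i * (Kf ψ F i b x * Uf ψ F j b x)) := by
    simp only [trace_eq1 h hF]
    rw [I_sum hV _ (fun b _ => BC.sum _ fun i _ => BC.sum _ fun j _ => bH b i j)]
    refine Finset.sum_congr rfl fun b _ => ?_
    rw [I_sum hV _ (fun i _ => BC.sum _ fun j _ => bH b i j)]
    refine Finset.sum_congr rfl fun i _ => ?_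
    rw [I_sum hV _ (fun j _ => bH b i j)]
  have t5 : I V (fun x => (hess V x * tau ψ x * hess F x * tau ψ x * hess F x * tau ψ x).trace)
      = ∑ k, ∑ i, ∑ j, I V (fun x => hess V x k i * (tau ψ x i j * Wf ψ F j k x)) := by
    simp only [trace_eq2 h hF]
    rw [I_sum hV _ (fun b _ => BC.sum _ fun i _ => BC.sum _ fun j _ => bH2 b i j)]
    refine Finset.sum_congr rfl fun b _ => ?_
    rw [I_sum hV _ (fun i _ => BC.sum _ fun j _ => bH2 b i j)]
    refine Finset.sum_congr rfl fun i _ => ?_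
    rw [I_sum hV _ (fun j _ => bH2 b i j)]
  have bS : ∀ i j, BC (fun x => hess V x j i * (fld ψ u i x * fld ψ u j x)) := fun i j =>
    (lb_hessV hV j i).lm.mul_bc ((hs i).mul_lb (hs j).1).bc
  have t6 : I V (fun x => ∑ a, ∑ b, hess V x a b * fld ψ u a x * fld ψ u b x)
      = ∑ i, ∑ j, I V (fun x => hess V x j i * (fld ψ u i x * fld ψ u j x)) := by
    have e : (fun x => ∑ a, ∑ b, hess V x a b * fld ψ u a x * fld ψ u b x)
        = fun x => ∑ i, ∑ j, hess V x j i * (fld ψ u i x * fld ψ u j x) := by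
      funext x
      rw [Finset.sum_comm]
      refine Finset.sum_congr rfl fun i _ => Finset.sum_congr rfl fun j _ => by ring
    rw [e, I_sum hV _ (fun i _ => BC.sum _ fun j _ => bS i j)]
    refine Finset.sum_congr rfl fun i _ => ?_
    rw [I_sum hV _ (fun j _ => bS i j)]
  -- nonnegative parts
  have bA1 : ∀ i j, BC (fun x => pd j (fld ψ u i) x * pd i (fld ψ u j) x) := fun i j =>
    ((hs i).pd j).mul_lm ((hs j).pd i).1
  have bA2 : ∀ b j, BC (fun x => pd j (fld ψ u b) x * Uf ψ F j b x) := fun b j =>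
    ((hs b).pd j).mul_lm (hU j b).1.lm
  have qa : 0 ≤ (∑ i, ∑ j, I V (fun x => pd j (fld ψ u i) x * pd i (fld ψ u j) x))
      - 2 * (∑ b, ∑ j, I V (fun x => pd j (fld ψ u b) x * Uf ψ F j b x)) + ∑ j, I V (Wf ψ F j j) := by
    have e : (∑ i, ∑ j, I V (fun x => pd j (fld ψ u i) x * pd i (fld ψ u j) x))
      - 2 * (∑ b, ∑ j, I V (fun x => pd j (fld ψ u b) x * Uf ψ F j b x)) + ∑ j, I V (Wf ψ F j j)
      = I V (fun x => (∑ i, ∑ j, pd j (fld ψ u i) x * pd i (fld ψ u j) x)
      - 2 * (∑ b, ∑ j, pd j (fld ψ u b) x * Uf ψ F j b x) + ∑ j, Wf ψ F j j x) := by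
      rw [I_add hV ((BC.sum _ fun i _ => BC.sum _ fun j _ => bA1 i j).sub
        ((LM.const 2).mul_bc (BC.sum _ fun b _ => BC.sum _ fun j _ => bA2 b j))) (BC.sum _ fun j _ => (hW j j).bc),
        I_sub hV (BC.sum _ fun i _ => BC.sum _ fun j _ => bA1 i j)
        ((LM.const 2).mul_bc (BC.sum _ fun b _ => BC.sum _ fun j _ => bA2 b j)), I_cmul,
        I_sum hV _ (fun i _ => BC.sum _ fun j _ => bA1 i j), I_sum hV _ (fun b _ => BC.sum _ fun j _ => bA2 b j),
        I_sum hV _ (fun j _ => (hW j j).bc)]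
      have r1 : ∀ i, I V (fun x => ∑ j, pd j (fld ψ u i) x * pd i (fld ψ u j) x)
          = ∑ j, I V (fun x => pd j (fld ψ u i) x * pd i (fld ψ u j) x) := fun i => I_sum hV _ (fun j _ => bA1 i j)
      have r2 : ∀ b, I V (fun x => ∑ j, pd j (fld ψ u b) x * Uf ψ F j b x)
          = ∑ j, I V (fun x => pd j (fld ψ u b) x * Uf ψ F j b x) := fun b => I_sum hV _ (fun j _ => bA2 b j)
      simp only [r1, r2]
    rw [e]
    refine I_nonneg ?_
    filter_upwards [MM.good h] with x hx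
    exact Qa_nonneg h hF hu hx
  have bB1 : ∀ b i j, BC (fun x => pd j (Kf ψ F i b) x * pd i (Uf ψ F j b) x) := fun b i j =>
    ((hK i b).pd j).mul_lm ((hU j b).pd i).1
  have bB2 : ∀ k i j, BC (fun x => dt ψ x k i j * pd i (Wf ψ F j k) x) := fun k i j =>
    (hdt k i j).mul_bc ((hW j k).pd i)
  have qb : 0 ≤ 2 * (∑ b, ∑ i, ∑ j, I V (fun x => pd j (Kf ψ F i b) x * pd i (Uf ψ F j b) x))
      - ∑ k, ∑ i, ∑ j, I V (fun x => dt ψ x k i j * pd i (Wf ψ F j k) x) := by
    have e : 2 * (∑ b, ∑ i, ∑ j, I V (fun x => pd j (Kf ψ F i b) x * pd i (Uf ψ F j b) x))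
      - ∑ k, ∑ i, ∑ j, I V (fun x => dt ψ x k i j * pd i (Wf ψ F j k) x)
      = I V (fun x => 2 * (∑ b, ∑ i, ∑ j, pd j (Kf ψ F i b) x * pd i (Uf ψ F j b) x)
      - ∑ k, ∑ i, ∑ j, dt ψ x k i j * pd i (Wf ψ F j k) x) := by
      rw [I_sub hV ((LM.const 2).mul_bc (BC.sum _ fun b _ => BC.sum _ fun i _ => BC.sum _ fun j _ => bB1 b i j))
        (BC.sum _ fun k _ => BC.sum _ fun i _ => BC.sum _ fun j _ => bB2 k i j), I_cmul,
        I_sum hV _ (fun b _ => BC.sum _ fun i _ => BC.sum _ fun j _ => bB1 b i j),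
        I_sum hV _ (fun k _ => BC.sum _ fun i _ => BC.sum _ fun j _ => bB2 k i j)]
      have r1 : ∀ b, I V (fun x => ∑ i, ∑ j, pd j (Kf ψ F i b) x * pd i (Uf ψ F j b) x)
          = ∑ i, ∑ j, I V (fun x => pd j (Kf ψ F i b) x * pd i (Uf ψ F j b) x) := by
        intro b
        rw [I_sum hV _ (fun i _ => BC.sum _ fun j _ => bB1 b i j)]
        refine Finset.sum_congr rfl fun i _ => ?_
        rw [I_sum hV _ (fun j _ => bB1 b i j)]
      have r2 : ∀ k, I V (fun x => ∑ i, ∑ j, dt ψ x k i j * pd i (Wf ψ F j k) x)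
          = ∑ i, ∑ j, I V (fun x => dt ψ x k i j * pd i (Wf ψ F j k) x) := by
        intro k
        rw [I_sum hV _ (fun i _ => BC.sum _ fun j _ => bB2 k i j)]
        refine Finset.sum_congr rfl fun i _ => ?_
        rw [I_sum hV _ (fun j _ => bB2 k i j)]
      simp only [r1, r2]
    rw [e]
    refine I_nonneg ?_
    filter_upwards [MM.good h] with x hx
    exact Qb_nonneg h hF hx
  linarith

theorem stmtKey : StmtKey := by
  intro n ψ V c C M hN h F u hF hu
  have hV := hN.smooth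
  have hk := key_I h hV hF hu
  unfold Ex
  rw [← add_div, ← mul_div_assoc, ← add_div]
  have hpos : 0 ≤ ∫ x, Real.exp (-V x) := integral_nonneg fun x => (Real.exp_pos _).le
  exact div_le_div_of_nonneg_right hk hpos

end Vale.Agent.P227.M.ID16
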