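import Vale.Agent.P227.M.Stmts

/-! # P227/M/ID16: Lipschitz calculus on `E n`, integration by parts for Lipschitz functions. -/

open MeasureTheory Filter Set
open scoped NNReal Topology

namespace Vale.Agent.P227.M.ID16

variable {n : ℕ}

/-- Lipschitz on every ball -/
def LB (f : E n → ℝ) : Prop := ∀ R : ℝ, ∃ K : ℝ≥0, LipschitzOnWith K f (Metric.closedBall 0 R)

/-- Lipschitz on every ball, with compact support -/
def LC (f : E n → ℝ) : Prop := LB f ∧ HasCompactSupport f

/-- measurable and bounded on every ball -/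
def LM (f : E n → ℝ) : Prop := Measurable f ∧ ∀ R : ℝ, ∃ M : ℝ, 0 ≤ M ∧ ∀ x : E n, ‖x‖ ≤ R → |f x| ≤ M

/-- measurable, bounded, compact support -/
def BC (f : E n → ℝ) : Prop := LM f ∧ HasCompactSupport f

theorem LB.continuous {f : E n → ℝ} (hf : LB f) : Continuous f := by
  rw [continuous_iff_continuousAt]
  intro x
  obtain ⟨K, hK⟩ := hf (‖x‖ + 1)
  refine hK.continuousOn.continuousAt ?_
  refine Filter.mem_of_superset (Metric.closedBall_mem_nhds x one_pos) ?_
  intro y hy
  simp only [Metric.mem_closedBall, dist_zero_right] at *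
  have := norm_le_norm_add_norm_sub' y x
  rw [dist_eq_norm] at hy
  linarith

theorem LB.lm {f : E n → ℝ} (hf : LB f) : LM f := by
  refine ⟨hf.continuous.measurable, fun R => ?_⟩
  obtain ⟨K, hK⟩ := hf |R|
  refine ⟨K * |R| + |f 0|, by positivity, fun x hx => ?_⟩
  have h0 : (0 : E n) ∈ Metric.closedBall (0 : E n) |R| := by simp
  have hx' : x ∈ Metric.closedBall (0 : E n) |R| := by
    simp only [Metric.mem_closedBall, dist_zero_right]
    exact hx.trans (le_abs_self R)
  have h1 := hK.dist_le_mul x hx' 0 h0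
  rw [Real.dist_eq, dist_zero_right] at h1
  have h2 : |f x| ≤ |f x - f 0| + |f 0| := by
    have := abs_add_le (f x - f 0) (f 0)
    simpa using this
  have h3 : (K : ℝ) * ‖x‖ ≤ K * |R| := by
    have := hx.trans (le_abs_self R)
    gcongr
  linarith

theorem LM.abs {f : E n → ℝ} (hf : LM f) (R : ℝ) : ∃ M : ℝ, 0 ≤ M ∧ ∀ x : E n, ‖x‖ ≤ R → |f x| ≤ M := hf.2 R

theorem LB.add {f g : E n → ℝ} (hf : LB f) (hg : LB g) : LB (fun x => f x + g x) := by
  intro R
  obtain ⟨K, hK⟩ := hf R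
  obtain ⟨L, hL⟩ := hg R
  exact ⟨K + L, hK.add hL⟩

theorem LB.neg {f : E n → ℝ} (hf : LB f) : LB (fun x => - f x) := by
  intro R
  obtain ⟨K, hK⟩ := hf R
  exact ⟨K, hK.neg⟩

theorem LB.sub {f g : E n → ℝ} (hf : LB f) (hg : LB g) : LB (fun x => f x - g x) := by
  intro R
  obtain ⟨K, hK⟩ := hf R
  obtain ⟨L, hL⟩ := hg R
  exact ⟨K + L, hK.sub hL⟩

theorem LB.mul {f g : E n → ℝ} (hf : LB f) (hg : LB g) : LB (fun x => f x * g x) := by
  intro R
  obtain ⟨K, hK⟩ := hf R
  obtain ⟨L, hL⟩ := hg R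
  obtain ⟨M, hM0, hM⟩ := hf.lm.2 R
  obtain ⟨M', hM0', hM'⟩ := hg.lm.2 R
  refine ⟨Real.toNNReal (M * L + M' * K), ?_⟩
  refine LipschitzOnWith.of_dist_le_mul fun x hx y hy => ?_
  rw [Real.coe_toNNReal _ (by positivity)]
  have h1 := hK.dist_le_mul x hx y hy
  have h2 := hL.dist_le_mul x hx y hy
  have hx' : ‖x‖ ≤ R := by simpa using hx
  have hy' : ‖y‖ ≤ R := by simpa using hy
  rw [Real.dist_eq] at *
  have h3 : f x * g x - f y * g y = f x * (g x - g y) + (f x - f y) * g y := by ring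
  rw [h3]
  refine (abs_add_le _ _).trans ?_
  rw [abs_mul, abs_mul]
  have h4 : |f x| * |g x - g y| ≤ M * (L * dist x y) := by
    gcongr
    exact hM x hx'
  have h5 : |f x - f y| * |g y| ≤ (K * dist x y) * M' := by
    gcongr
    exact hM' y hy'
  nlinarith

theorem LB.const (c : ℝ) : LB (fun _ : E n => c) := fun _ => ⟨0, (LipschitzWith.const c).lipschitzOnWith⟩

theorem LB.sum {ι : Type*} (s : Finset ι) {f : ι → E n → ℝ} (hf : ∀ i ∈ s, LB (f i)) :
    LB (fun x => ∑ i ∈ s, f i x) := by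
  classical
  induction s using Finset.induction_on with
  | empty => simpa using LB.const (n := n) 0
  | insert a s ha ih =>
    simp only [Finset.sum_insert ha]
    exact (hf a (Finset.mem_insert_self a s)).add (ih fun i hi => hf i (Finset.mem_insert_of_mem hi))

theorem LB.of_lip {f : E n → ℝ} {K : ℝ≥0} (hf : LipschitzWith K f) : LB f := fun _ => ⟨K, hf.lipschitzOnWith⟩

theorem LB.of_contDiff {f : E n → ℝ} (hf : ContDiff ℝ 1 f) : LB f := by
  intro R
  have hc : IsCompact (Metric.closedBall (0 : E n) R) := isCompact_closedBall _ _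
  have hcont : Continuous (fderiv ℝ f) := hf.continuous_fderiv (by norm_num)
  obtain ⟨M, hM⟩ := hc.exists_bound_of_continuousOn hcont.continuousOn
  refine ⟨Real.toNNReal (max M 0), ?_⟩
  refine Convex.lipschitzOnWith_of_nnnorm_fderiv_le (𝕜 := ℝ) (fun x _ => hf.differentiable (by norm_num) x) ?_ (convex_closedBall _ _)
  intro x hx
  rw [← NNReal.coe_le_coe, Real.coe_toNNReal _ (le_max_right _ _), coe_nnnorm]
  exact (hM x hx).trans (le_max_left _ _)

theorem LC.lipschitz {f : E n → ℝ} (hf : LC f) : ∃ K : ℝ≥0, LipschitzWith K f := by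
  obtain ⟨hb, hc⟩ := hf
  obtain ⟨R, hR⟩ : ∃ R : ℝ, ∀ x, R < ‖x‖ → f x = 0 := by
    obtain ⟨R, hR⟩ := hc.isCompact.isBounded.subset_closedBall 0
    refine ⟨R, fun x hx => ?_⟩
    by_contra h
    have := hR (subset_tsupport f (Function.mem_support.2 h))
    simp only [Metric.mem_closedBall, dist_zero_right] at this
    linarith
  obtain ⟨K, hK⟩ := hb (R + 1)
  obtain ⟨M, hM0, hM⟩ := hb.lm.2 (R + 1)
  refine ⟨Real.toNNReal (K + M), ?_⟩
  refine LipschitzWith.of_dist_le_mul fun x y => ?_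
  rw [Real.coe_toNNReal _ (by positivity), Real.dist_eq]
  have key : ∀ x y : E n, ‖x‖ ≤ R → |f x - f y| ≤ (K + M) * dist x y := by
    intro x y hx
    by_cases hy : ‖y‖ ≤ R + 1
    · have h1 := hK.dist_le_mul x (by simp; linarith) y (by simpa using hy)
      rw [Real.dist_eq] at h1
      have := dist_nonneg (x := x) (y := y)
      nlinarith
    · push Not at hy
      rw [hR y (by linarith), sub_zero]
      have h1 : |f x| ≤ M := hM x (by linarith)
      have h2 : 1 ≤ dist x y := by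
        rw [dist_eq_norm]
        have := norm_sub_norm_le y x
        rw [norm_sub_rev] at this
        linarith
      have hK0 : (0 : ℝ) ≤ K := K.2
      nlinarith
  by_cases hx : ‖x‖ ≤ R
  · exact key x y hx
  · by_cases hy : ‖y‖ ≤ R
    · have := key y x hy
      rwa [abs_sub_comm, dist_comm] at this
    · push Not at hx hy
      rw [hR x hx, hR y hy]
      simp
      positivity

theorem LB.ae_diff {f : E n → ℝ} (hf : LB f) : ∀ᵐ x : E n, DifferentiableAt ℝ f x := by
  have h : ∀ N : ℕ, ∀ᵐ x : E n, ‖x‖ < N → DifferentiableAt ℝ f x := by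
    intro N
    obtain ⟨K, hK⟩ := hf N
    filter_upwards [hK.ae_differentiableWithinAt_of_mem (μ := volume)] with x hx hxN
    refine (hx ?_).differentiableAt ?_
    · simpa using hxN.le
    · refine Filter.mem_of_superset (Metric.isOpen_ball.mem_nhds (x := x) (s := Metric.ball (0 : E n) N) (by simpa using hxN)) Metric.ball_subset_closedBall
  rw [← ae_all_iff] at h
  filter_upwards [h] with x hx
  obtain ⟨N, hN⟩ := exists_nat_gt ‖x‖
  exact hx N hN

theorem LB.pd_lm {f : E n → ℝ} (hf : LB f) (a : Fin n) : LM (pd a f) := by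
  refine ⟨measurable_fderiv_apply_const ℝ f (ei a), fun R => ?_⟩
  obtain ⟨K, hK⟩ := hf (R + 1)
  refine ⟨K * ‖(ei a : E n)‖, by positivity, fun x hx => ?_⟩
  have h1 : ‖fderiv ℝ f x‖ ≤ K := by
    refine norm_fderiv_le_of_lipschitzOn ℝ (s := Metric.closedBall (0 : E n) (R + 1)) ?_ hK
    refine Filter.mem_of_superset (Metric.closedBall_mem_nhds x one_pos) ?_
    intro y hy
    simp only [Metric.mem_closedBall, dist_zero_right] at *
    have := norm_le_norm_add_norm_sub' y x
    rw [dist_eq_norm] at hy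
    linarith
  unfold pd
  rw [← Real.norm_eq_abs]
  refine (ContinuousLinearMap.le_opNorm _ _).trans ?_
  gcongr

theorem LM.add {f g : E n → ℝ} (hf : LM f) (hg : LM g) : LM (fun x => f x + g x) := by
  refine ⟨hf.1.add hg.1, fun R => ?_⟩
  obtain ⟨M, h0, hM⟩ := hf.2 R
  obtain ⟨M', h0', hM'⟩ := hg.2 R
  exact ⟨M + M', by positivity, fun x hx => (abs_add_le _ _).trans (add_le_add (hM x hx) (hM' x hx))⟩

theorem LM.neg {f : E n → ℝ} (hf : LM f) : LM (fun x => - f x) := by
  refine ⟨hf.1.neg, fun R => ?_⟩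
  obtain ⟨M, h0, hM⟩ := hf.2 R
  exact ⟨M, h0, fun x hx => by rw [abs_neg]; exact hM x hx⟩

theorem LM.sub {f g : E n → ℝ} (hf : LM f) (hg : LM g) : LM (fun x => f x - g x) := by
  simpa [sub_eq_add_neg] using hf.add hg.neg

theorem LM.mul {f g : E n → ℝ} (hf : LM f) (hg : LM g) : LM (fun x => f x * g x) := by
  refine ⟨hf.1.mul hg.1, fun R => ?_⟩
  obtain ⟨M, h0, hM⟩ := hf.2 R
  obtain ⟨M', h0', hM'⟩ := hg.2 R
  refine ⟨M * M', by positivity, fun x hx => ?_⟩
  rw [abs_mul]
  exact mul_le_mul (hM x hx) (hM' x hx) (abs_nonneg _) h0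

theorem LM.const (c : ℝ) : LM (fun _ : E n => c) := (LB.const c).lm

theorem LM.sum {ι : Type*} (s : Finset ι) {f : ι → E n → ℝ} (hf : ∀ i ∈ s, LM (f i)) :
    LM (fun x => ∑ i ∈ s, f i x) := by
  classical
  induction s using Finset.induction_on with
  | empty => simpa using LM.const (n := n) 0
  | insert a s ha ih =>
    simp only [Finset.sum_insert ha]
    exact (hf a (Finset.mem_insert_self a s)).add (ih fun i hi => hf i (Finset.mem_insert_of_mem hi))

theorem BC.integrable {f : E n → ℝ} (hf : BC f) : Integrable f := by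
  obtain ⟨⟨hm, hb⟩, hc⟩ := hf
  obtain ⟨R, hR⟩ := hc.isCompact.isBounded.subset_closedBall 0
  obtain ⟨M, h0, hM⟩ := hb R
  rw [← integrableOn_iff_integrable_of_support_subset ((subset_tsupport f).trans hR)]
  refine Measure.integrableOn_of_bounded (M := M) ?_ hm.aestronglyMeasurable ?_
  · exact (isCompact_closedBall (0 : E n) R).measure_lt_top.ne
  · refine (ae_restrict_iff' measurableSet_closedBall).2 (Filter.Eventually.of_forall fun x hx => ?_)
    rw [Real.norm_eq_abs]
    exact hM x (by simpa using hx)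

theorem LC.bc {f : E n → ℝ} (hf : LC f) : BC f := ⟨hf.1.lm, hf.2⟩

theorem LC.pd {f : E n → ℝ} (hf : LC f) (a : Fin n) : BC (pd a f) := by
  refine ⟨hf.1.pd_lm a, ?_⟩
  exact (hf.2.fderiv ℝ).comp_left (g := fun L : E n →L[ℝ] ℝ => L (ei a)) rfl

theorem LM.mul_bc {f g : E n → ℝ} (hf : LM f) (hg : BC g) : BC (fun x => f x * g x) :=
  ⟨hf.mul hg.1, hg.2.mul_left⟩

theorem BC.mul_lm {f g : E n → ℝ} (hf : BC f) (hg : LM g) : BC (fun x => f x * g x) :=
  ⟨hf.1.mul hg, hf.2.mul_right⟩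

theorem BC.add {f g : E n → ℝ} (hf : BC f) (hg : BC g) : BC (fun x => f x + g x) :=
  ⟨hf.1.add hg.1, hf.2.add hg.2⟩

theorem BC.neg {f : E n → ℝ} (hf : BC f) : BC (fun x => - f x) :=
  ⟨hf.1.neg, hf.2.comp_left (g := fun t : ℝ => -t) (by simp)⟩

theorem LC.mul_lb {f g : E n → ℝ} (hf : LC f) (hg : LB g) : LC (fun x => f x * g x) :=
  ⟨hf.1.mul hg, hf.2.mul_right⟩

theorem LB.mul_lc {f g : E n → ℝ} (hf : LB f) (hg : LC g) : LC (fun x => f x * g x) :=
  ⟨hf.mul hg.1, hg.2.mul_left⟩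

theorem LC.add {f g : E n → ℝ} (hf : LC f) (hg : LC g) : LC (fun x => f x + g x) :=
  ⟨hf.1.add hg.1, hf.2.add hg.2⟩

end Vale.Agent.P227.M.ID16
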