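import Vale.Agent.P227.M.ID16.Wgt
import Vale.Agent.P227.M.ID.QAlg987

/-! # P227/M/ID16: the fields `s`, `U`, `K`, `W` and the pointwise identities -/

open MeasureTheory Filter Set
open scoped NNReal Topology

namespace Vale.Agent.P227.M.ID16

variable {n : ℕ}

theorem test_lc {f : E n → ℝ} (hf : Test f) : LC f :=
  ⟨LB.of_contDiff (hf.1.of_le (by exact_mod_cast le_top)), hf.2⟩

theorem test_pd {f : E n → ℝ} (hf : Test f) (a : Fin n) : Test (pd a f) :=
  ⟨contDiff_pd_top hf.1 a, ((test_lc hf).pd a).2⟩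

theorem test_hess {f : E n → ℝ} (hf : Test f) (a b : Fin n) : Test (fun x => hess f x a b) :=
  test_pd (test_pd hf b) a

theorem hess_symm {f : E n → ℝ} (hf : ContDiff ℝ (⊤ : ℕ∞) f) (x : E n) (i j : Fin n) :
    hess f x i j = hess f x j i := by
  unfold hess
  exact pd_symm (diff_top hf) (fun i => diff_top (contDiff_pd_top hf i) x) j i

/-- `∂_k N_ij` -/
noncomputable def Aj (F : E n → ℝ) (x : E n) (k i j : Fin n) : ℝ := pd k (fun z => hess F z i j) x

theorem Aj_symm2 {F : E n → ℝ} (hF : ContDiff ℝ (⊤ : ℕ∞) F) (x : E n) (k i j : Fin n) :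
    Aj F x k i j = Aj F x k j i := by
  unfold Aj
  have : (fun z => hess F z i j) = fun z => hess F z j i := funext fun z => hess_symm hF z i j
  rw [this]

theorem Aj_symm1 {F : E n → ℝ} (hF : ContDiff ℝ (⊤ : ℕ∞) F) (x : E n) (k i j : Fin n) :
    Aj F x k i j = Aj F x i k j :=
  pd_symm (diff_top (contDiff_pd_top hF j)) (fun a => diff_top (contDiff_pd_top (contDiff_pd_top hF j) a) x) i k

variable {ψ V : E n → ℝ} {c C M : ℝ}

noncomputable def Uf (ψ F : E n → ℝ) (i j : Fin n) (x : E n) : ℝ := ∑ e, tau ψ x i e * hess F x e j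
noncomputable def Kf (ψ F : E n → ℝ) (i b : Fin n) (x : E n) : ℝ := ∑ e, Uf ψ F i e x * tau ψ x e b
noncomputable def Wf (ψ F : E n → ℝ) (i j : Fin n) (x : E n) : ℝ := ∑ l, Uf ψ F l i x * Uf ψ F j l x

theorem fld_lc (h : MM ψ V c C M) {u : E n → ℝ} (hu : Test u) (b : Fin n) : LC (fld ψ u b) :=
  LC.sum _ fun e _ => (MM.lbτ h b e).mul_lc (test_lc (test_pd hu e))

theorem Uf_lc (h : MM ψ V c C M) {F : E n → ℝ} (hF : Test F) (i j : Fin n) : LC (Uf ψ F i j) :=
  LC.sum _ fun e _ => (MM.lbτ h i e).mul_lc (test_lc (test_hess hF e j))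

theorem Kf_lc (h : MM ψ V c C M) {F : E n → ℝ} (hF : Test F) (i j : Fin n) : LC (Kf ψ F i j) :=
  LC.sum _ fun e _ => (Uf_lc h hF i e).mul_lb (MM.lbτ h e j)

theorem Wf_lc (h : MM ψ V c C M) {F : E n → ℝ} (hF : Test F) (i j : Fin n) : LC (Wf ψ F i j) :=
  LC.sum _ fun l _ => (Uf_lc h hF l i).mul_lb (Uf_lc h hF j l).1

section point

variable {F u : E n → ℝ} {x : E n}

theorem Uf_diff (hx : Good ψ x) (hF : Test F) (i j : Fin n) : DifferentiableAt ℝ (Uf ψ F i j) x :=
  DifferentiableAt.fun_sum fun e _ => (hx.dτ i e).fun_mul (diff_top (test_hess hF e j).1 x)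

theorem Kf_diff (hx : Good ψ x) (hF : Test F) (i j : Fin n) : DifferentiableAt ℝ (Kf ψ F i j) x :=
  DifferentiableAt.fun_sum fun e _ => (Uf_diff hx hF i e).fun_mul (hx.dτ e j)

theorem fld_diff (hx : Good ψ x) (hu : Test u) (b : Fin n) : DifferentiableAt ℝ (fld ψ u b) x :=
  DifferentiableAt.fun_sum fun e _ => (hx.dτ b e).fun_mul (diff_top (test_pd hu e).1 x)

theorem pd_Uf (hx : Good ψ x) (hF : Test F) (k i j : Fin n) :
    pd k (Uf ψ F i j) x = ∑ e, (dt ψ x k i e * hess F x e j + tau ψ x i e * Aj F x k e j) := by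
  unfold Uf
  rw [pd_sum _ (fun e _ => (hx.dτ i e).fun_mul (diff_top (test_hess hF e j).1 x))]
  refine Finset.sum_congr rfl fun e _ => ?_
  rw [pd_mul (hx.dτ i e) (diff_top (test_hess hF e j).1 x)]
  rfl

theorem pd_Kf (hx : Good ψ x) (hF : Test F) (k i j : Fin n) :
    pd k (Kf ψ F i j) x = ∑ e, (pd k (Uf ψ F i e) x * tau ψ x e j + Uf ψ F i e x * dt ψ x k e j) := by
  unfold Kf
  rw [pd_sum _ (fun e _ => (Uf_diff hx hF i e).fun_mul (hx.dτ e j))]
  refine Finset.sum_congr rfl fun e _ => ?_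
  rw [pd_mul (Uf_diff hx hF i e) (hx.dτ e j)]
  rfl

theorem pd_Wf (hx : Good ψ x) (hF : Test F) (k i j : Fin n) :
    pd k (Wf ψ F i j) x = ∑ l, (pd k (Uf ψ F j l) x * Uf ψ F l i x + Uf ψ F j l x * pd k (Uf ψ F l i) x) := by
  unfold Wf
  rw [pd_sum _ (fun l _ => (Uf_diff hx hF l i).fun_mul (Uf_diff hx hF j l))]
  refine Finset.sum_congr rfl fun l _ => ?_
  rw [pd_mul (Uf_diff hx hF l i) (Uf_diff hx hF j l)]
  ring

theorem pd_fld (hx : Good ψ x) (hu : Test u) (k b : Fin n) :
    pd k (fld ψ u b) x = ∑ e, (dt ψ x k b e * pd e u x + tau ψ x b e * hess u x k e) := by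
  unfold fld
  rw [pd_sum _ (fun e _ => (hx.dτ b e).fun_mul (diff_top (test_pd hu e).1 x))]
  refine Finset.sum_congr rfl fun e _ => ?_
  rw [pd_mul (hx.dτ b e) (diff_top (test_pd hu e).1 x)]
  rfl

/-- (A1) -/
theorem Lop_eq (h : MM ψ V c C M) (hV : Differentiable ℝ V) (hx : Good ψ x) (hu : Test u) :
    Lop ψ u x = ∑ i, ds V i (fld ψ u i) x := by
  unfold ds
  simp only [pd_fld hx hu]
  have e1 : ∀ i, pd i V x * fld ψ u i x = ∑ e, (tau ψ x e i * pd i V x) * pd e u x := by
    intro i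
    unfold fld
    rw [Finset.mul_sum]
    refine Finset.sum_congr rfl fun e _ => ?_
    rw [MM.τsymm h x i e]
    ring
  simp only [e1, ← Finset.sum_sub_distrib]
  have e2 : ∀ i e, dt ψ x i i e * pd e u x + tau ψ x i e * hess u x i e - (tau ψ x e i * pd i V x) * pd e u x
      = tau ψ x i e * hess u x i e + (dt ψ x i e i - tau ψ x e i * pd i V x) * pd e u x := by
    intro i e
    rw [dt_symm h x i i e]
    ring
  simp only [e2, Finset.sum_add_distrib]
  unfold Lop
  rw [sub_eq_add_neg]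
  congr 1
  rw [Finset.sum_comm, ← Finset.sum_neg_distrib]
  refine Finset.sum_congr rfl fun e _ => ?_
  rw [← Finset.sum_mul, div_tau h hV hx e]
  ring

theorem Lop_diff (hx : Good ψ x) (hF : Test F) : DifferentiableAt ℝ (Lop ψ F) x := by
  unfold Lop
  exact (DifferentiableAt.fun_sum fun i _ => DifferentiableAt.fun_sum fun j _ =>
    (hx.dτ i j).fun_mul (diff_top (test_hess hF i j).1 x)).fun_sub
    (DifferentiableAt.fun_sum fun i _ => (diff_coord i).fun_mul (diff_top (test_pd hF i).1 x))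

theorem pd_Lop (hx : Good ψ x) (hF : Test F) (k : Fin n) :
    pd k (Lop ψ F) x = (∑ i, ∑ j, (dt ψ x k i j * hess F x i j + tau ψ x i j * Aj F x k i j))
      - pd k F x - ∑ i, x i * hess F x k i := by
  unfold Lop
  rw [pd_sub (DifferentiableAt.fun_sum fun i _ => DifferentiableAt.fun_sum fun j _ =>
    (hx.dτ i j).fun_mul (diff_top (test_hess hF i j).1 x))
    (DifferentiableAt.fun_sum fun i _ => (diff_coord i).fun_mul (diff_top (test_pd hF i).1 x))]
  rw [pd_sum _ (fun i _ => DifferentiableAt.fun_sum fun j _ =>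
    (hx.dτ i j).fun_mul (diff_top (test_hess hF i j).1 x))]
  rw [pd_sum _ (fun i _ => (diff_coord i).fun_mul (diff_top (test_pd hF i).1 x))]
  have e1 : ∀ i, pd k (fun z : E n => z i * pd i F z) x = (if i = k then pd i F x else 0) + x i * hess F x k i := by
    intro i
    rw [pd_mul (diff_coord i) (diff_top (test_pd hF i).1 x), pd_coord]
    simp only [ite_mul, one_mul, zero_mul]
    rfl
  simp only [e1, Finset.sum_add_distrib]
  have e2 : ∀ i, pd k (fun z => ∑ j, tau ψ z i j * hess F z i j) x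
      = ∑ j, (dt ψ x k i j * hess F x i j + tau ψ x i j * Aj F x k i j) := by
    intro i
    rw [pd_sum _ (fun j _ => (hx.dτ i j).fun_mul (diff_top (test_hess hF i j).1 x))]
    refine Finset.sum_congr rfl fun j _ => ?_
    rw [pd_mul (hx.dτ i j) (diff_top (test_hess hF i j).1 x)]
    rfl
  simp only [e2, Finset.sum_add_distrib]
  simp
  ring

/-- (A2) -/
theorem fld_h_eq (h : MM ψ V c C M) (hV : Differentiable ℝ V) (hx : Good ψ x) (hF : Test F) (hu : Test u)
    (b : Fin n) :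
    fld ψ (fun z => Lop ψ F z + F z + u z) b x = (∑ i, ds V i (Kf ψ F i b) x) + fld ψ u b x := by
  have hpd : ∀ k, pd k (fun z => Lop ψ F z + F z + u z) x =
      (∑ i, ∑ j, (dt ψ x k i j * hess F x i j + tau ψ x i j * Aj F x k i j))
        - (∑ i, x i * hess F x k i) + pd k u x := by
    intro k
    rw [pd_add ((Lop_diff hx hF).fun_add (diff_top hF.1 x)) (diff_top hu.1 x),
      pd_add (Lop_diff hx hF) (diff_top hF.1 x), pd_Lop hx hF]
    ring
  have hM : ∀ e, ∑ i, ds V i (Uf ψ F i e) x = (∑ i, ∑ j, tau ψ x i j * Aj F x e i j) - ∑ i, x i * hess F x e i := by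
    intro e
    have h1 := Lop_eq h hV hx (test_pd hF e)
    have h2 : ∀ i, fld ψ (pd e F) i = Uf ψ F i e := fun i => rfl
    simp only [h2] at h1
    rw [← h1]
    unfold Lop
    congr 1
    · refine Finset.sum_congr rfl fun i _ => Finset.sum_congr rfl fun j _ => ?_
      congr 1
      -- hess (pd e F) x i j = Aj F x e i j
      have : hess (pd e F) x i j = Aj F x i j e := rfl
      rw [this, Aj_symm2 hF.1 x i j e, Aj_symm1 hF.1 x i e j]
    · refine Finset.sum_congr rfl fun i _ => ?_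
      congr 1
      exact hess_symm hF.1 x i e
  have hK : ∀ i, ds V i (Kf ψ F i b) x = (∑ e, ds V i (Uf ψ F i e) x * tau ψ x e b)
      + ∑ e, Uf ψ F i e x * dt ψ x i e b := by
    intro i
    unfold ds
    rw [pd_Kf hx hF, Finset.sum_add_distrib]
    have : pd i V x * Kf ψ F i b x = ∑ e, (pd i V x * Uf ψ F i e x) * tau ψ x e b := by
      unfold Kf
      rw [Finset.mul_sum]
      refine Finset.sum_congr rfl fun e _ => by ring
    rw [this]
    simp only [sub_mul, Finset.sum_sub_distrib]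
    ring
  simp only [hK, Finset.sum_add_distrib]
  rw [Finset.sum_comm]
  simp only [← Finset.sum_mul, hM]
  have hΦ : ∑ i, ∑ e, Uf ψ F i e x * dt ψ x i e b = ∑ k, tau ψ x b k * ∑ i, ∑ j, dt ψ x k i j * hess F x i j := by
    have l1 : ∑ i, ∑ e, Uf ψ F i e x * dt ψ x i e b = ∑ m, ∑ e, Φ ψ x m e b * hess F x m e := by
      unfold Uf Φ
      simp only [Finset.sum_mul]
      -- ∑ i ∑ e ∑ m
      have r1 : ∀ i : Fin n, ∑ e, ∑ m, tau ψ x i m * hess F x m e * dt ψ x i e b
          = ∑ m, ∑ e, tau ψ x i m * hess F x m e * dt ψ x i e b := fun i => Finset.sum_comm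
      simp only [r1]
      rw [Finset.sum_comm]
      refine Finset.sum_congr rfl fun m _ => ?_
      rw [Finset.sum_comm]
      refine Finset.sum_congr rfl fun e _ => Finset.sum_congr rfl fun i _ => ?_
      rw [MM.τsymm h x i m]
      ring
    rw [l1]
    have r2 : ∀ m e, Φ ψ x m e b = Φ ψ x b m e := by
      intro m e
      rw [Φ_symm1 h hx m e b, Φ_symm2 h x e m b, Φ_symm1 h hx e b m, Φ_symm2 h x b e m]
    simp only [r2]
    unfold Φ
    simp only [Finset.sum_mul, Finset.mul_sum]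
    have r3 : ∀ m : Fin n, ∑ e, ∑ k, tau ψ x b k * dt ψ x k m e * hess F x m e
        = ∑ k, ∑ e, tau ψ x b k * dt ψ x k m e * hess F x m e := fun m => Finset.sum_comm
    simp only [r3]
    rw [Finset.sum_comm]
    refine Finset.sum_congr rfl fun k _ => Finset.sum_congr rfl fun m _ => Finset.sum_congr rfl fun e _ => by ring
  rw [hΦ]
  unfold fld
  simp only [hpd]
  rw [← Finset.sum_add_distrib, ← Finset.sum_add_distrib]
  refine Finset.sum_congr rfl fun k _ => ?_
  rw [MM.τsymm h x k b]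
  simp only [Finset.sum_add_distrib]
  ring

end point

end Vale.Agent.P227.M.ID16
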