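import Vale.Agent.P227.M.ID16.Calc

/-! # P227/M/ID16: `τ = (D²ψ)⁻¹` -/

open MeasureTheory Filter Set
open scoped NNReal Topology

namespace Vale.Agent.P227.M.ID16

variable {n : ℕ}

theorem LB.prod {ι : Type*} (s : Finset ι) {f : ι → E n → ℝ} (hf : ∀ i ∈ s, LB (f i)) :
    LB (fun x => ∏ i ∈ s, f i x) := by
  classical
  induction s using Finset.induction_on with
  | empty => simpa using LB.const (n := n) 1
  | insert a s ha ih =>
    simp only [Finset.prod_insert ha]
    exact (hf a (Finset.mem_insert_self a s)).mul (ih fun i hi => hf i (Finset.mem_insert_of_mem hi))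

theorem LB.inv {f : E n → ℝ} (hf : LB f) (h0 : ∀ x, f x ≠ 0) : LB (fun x => (f x)⁻¹) := by
  intro R
  obtain ⟨K, hK⟩ := hf R
  by_cases hne : (Metric.closedBall (0 : E n) R).Nonempty
  · obtain ⟨x0, hx0, hmin⟩ := (isCompact_closedBall (0 : E n) R).exists_isMinOn hne
      (hf.continuous.abs).continuousOn
    set m := |f x0| with hm
    have hmpos : 0 < m := abs_pos.2 (h0 x0)
    refine ⟨Real.toNNReal (K / m ^ 2), LipschitzOnWith.of_dist_le_mul fun x hx y hy => ?_⟩
    rw [Real.coe_toNNReal _ (by positivity), Real.dist_eq]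
    have h1 := hK.dist_le_mul x hx y hy
    rw [Real.dist_eq] at h1
    have h2 : m ≤ |f x| := hmin hx
    have h3 : m ≤ |f y| := hmin hy
    have h4 : (f x)⁻¹ - (f y)⁻¹ = -(f x - f y) * ((f x)⁻¹ * (f y)⁻¹) := by
      field_simp [h0 x, h0 y]
      ring
    rw [h4, abs_mul, abs_neg, abs_mul, abs_inv, abs_inv]
    have h5 : |f x|⁻¹ ≤ m⁻¹ := by
      gcongr
    have h6 : |f y|⁻¹ ≤ m⁻¹ := by
      gcongr
    calc |f x - f y| * (|f x|⁻¹ * |f y|⁻¹) ≤ (K * dist x y) * (m⁻¹ * m⁻¹) := by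
          gcongr
      _ = K / m ^ 2 * dist x y := by
          field_simp
  · rw [Set.not_nonempty_iff_eq_empty] at hne
    exact ⟨0, by rw [hne]; exact LipschitzOnWith.of_dist_le_mul (by simp)⟩

theorem LB.det {A : E n → Matrix (Fin n) (Fin n) ℝ} (hA : ∀ i j, LB (fun x => A x i j)) :
    LB (fun x => (A x).det) := by
  simp only [Matrix.det_apply']
  exact LB.sum _ fun σ _ => (LB.const _).mul (LB.prod _ fun i _ => hA _ _)

theorem LB.minv {A : E n → Matrix (Fin n) (Fin n) ℝ} (hA : ∀ i j, LB (fun x => A x i j))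
    (h0 : ∀ x, (A x).det ≠ 0) (i j : Fin n) : LB (fun x => (A x)⁻¹ i j) := by
  have h1 : (fun x => (A x)⁻¹ i j) = fun x => ((A x).det)⁻¹ * ((A x).updateRow j (Pi.single i 1)).det := by
    funext x
    rw [Matrix.inv_def, Ring.inverse_eq_inv', Matrix.smul_apply, smul_eq_mul, Matrix.adjugate_apply]
  rw [h1]
  refine ((LB.det hA).inv h0).mul (LB.det fun k l => ?_)
  by_cases hk : k = j
  · subst hk
    simpa [Matrix.updateRow_self] using LB.const (n := n) ((Pi.single i (1 : ℝ) : Fin n → ℝ) l)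
  · simpa [Matrix.updateRow_ne hk] using hA k l

section MMfacts

variable {ψ V : E n → ℝ} {c C M : ℝ}

theorem qf_eq (A : Matrix (Fin n) (Fin n) ℝ) (v : Fin n → ℝ) :
    qf A (WithLp.toLp 2 v) = v ⬝ᵥ (A.mulVec v) := by
  simp only [qf, dotProduct, Matrix.mulVec, Finset.mul_sum]
  refine Finset.sum_congr rfl fun i _ => Finset.sum_congr rfl fun j _ => ?_
  ring

theorem MM.det_ne (h : MM ψ V c C M) (x : E n) : (hess ψ x).det ≠ 0 := by
  intro h0
  rw [← Matrix.exists_mulVec_eq_zero_iff] at h0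
  obtain ⟨v, hv, hAv⟩ := h0
  have h1 := h.lower x (WithLp.toLp 2 v)
  rw [qf_eq, hAv, dotProduct_zero] at h1
  have h2 : (0 : ℝ) < ‖(WithLp.toLp 2 v : E n)‖ ^ 2 := by
    have : (WithLp.toLp 2 v : E n) ≠ 0 := by
      intro h3
      apply hv
      have := congrArg WithLp.ofLp h3
      simpa using this
    positivity
  have := mul_pos h.c_pos h2
  linarith

theorem MM.lbτ (h : MM ψ V c C M) (i j : Fin n) : LB (fun x => tau ψ x i j) :=
  LB.minv (fun i j => MM.lbσ h i j) (MM.det_ne h) i j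

theorem MM.symmM (h : MM ψ V c C M) (x : E n) : (hess ψ x).transpose = hess ψ x := by
  ext i j
  exact MM.symm h x j i

theorem MM.τsymmM (h : MM ψ V c C M) (x : E n) : (tau ψ x).transpose = tau ψ x := by
  unfold tau
  rw [Matrix.transpose_nonsing_inv, MM.symmM h]

theorem MM.τsymm (h : MM ψ V c C M) (x : E n) (i j : Fin n) : tau ψ x i j = tau ψ x j i := by
  conv_lhs => rw [← MM.τsymmM h x]
  rfl

theorem MM.στ (h : MM ψ V c C M) (x : E n) : hess ψ x * tau ψ x = 1 :=
  Matrix.mul_nonsing_inv _ (isUnit_iff_ne_zero.2 (MM.det_ne h x))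

theorem MM.τσ (h : MM ψ V c C M) (x : E n) : tau ψ x * hess ψ x = 1 :=
  Matrix.nonsing_inv_mul _ (isUnit_iff_ne_zero.2 (MM.det_ne h x))

/-- a point where all `σ_ij`, `τ_ij` are differentiable -/
structure Good (ψ : E n → ℝ) (x : E n) : Prop where
  dσ : ∀ i j, DifferentiableAt ℝ (fun z => hess ψ z i j) x
  dτ : ∀ i j, DifferentiableAt ℝ (fun z => tau ψ z i j) x

theorem MM.good (h : MM ψ V c C M) : ∀ᵐ x, Good ψ x := by
  have h1 : ∀ᵐ x : E n, ∀ i j, DifferentiableAt ℝ (fun z => hess ψ z i j) x :=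
    ae_all_iff.2 fun i => ae_all_iff.2 fun j => (MM.lbσ h i j).ae_diff
  have h2 : ∀ᵐ x : E n, ∀ i j, DifferentiableAt ℝ (fun z => tau ψ z i j) x :=
    ae_all_iff.2 fun i => ae_all_iff.2 fun j => (MM.lbτ h i j).ae_diff
  filter_upwards [h1, h2] with x hx1 hx2
  exact ⟨hx1, hx2⟩

/-- `∂_k σ_ij` -/
noncomputable def S (ψ : E n → ℝ) (x : E n) (k i j : Fin n) : ℝ := pd k (fun z => hess ψ z i j) x

/-- `∂_k τ_ij` -/
noncomputable def dt (ψ : E n → ℝ) (x : E n) (k i j : Fin n) : ℝ := pd k (fun z => tau ψ z i j) x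

theorem S_symm2 (h : MM ψ V c C M) (x : E n) (k i j : Fin n) : S ψ x k i j = S ψ x k j i := by
  unfold S
  have : (fun z => hess ψ z i j) = fun z => hess ψ z j i := funext fun z => MM.symm h z i j
  rw [this]

theorem S_symm1 (h : MM ψ V c C M) {x : E n} (hx : Good ψ x) (k i j : Fin n) : S ψ x k i j = S ψ x i k j := by
  exact pd_symm (MM.diff_pd h j) (fun a => hx.dσ a j) i k

theorem dt_symm (h : MM ψ V c C M) (x : E n) (k i j : Fin n) : dt ψ x k i j = dt ψ x k j i := by
  unfold dt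
  have : (fun z => tau ψ z i j) = fun z => tau ψ z j i := funext fun z => MM.τsymm h z i j
  rw [this]

/-- `∂_k τ = - τ (∂_k σ) τ` -/
theorem dt_eq (h : MM ψ V c C M) {x : E n} (hx : Good ψ x) (k a c' : Fin n) :
    dt ψ x k a c' = - ∑ i, ∑ j, tau ψ x a i * S ψ x k i j * tau ψ x j c' := by
  have h1 : ∀ i l, (∑ j, (S ψ x k i j * tau ψ x j l + hess ψ x i j * dt ψ x k j l)) = 0 := by
    intro i l
    have e1 : (fun z => ∑ j, hess ψ z i j * tau ψ z j l) = fun _ => (1 : Matrix (Fin n) (Fin n) ℝ) i l := by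
      funext z
      rw [← MM.στ h z, Matrix.mul_apply]
    have e2 : pd k (fun z => ∑ j, hess ψ z i j * tau ψ z j l) x = 0 := by
      rw [e1, pd_const]
    rw [pd_sum _ (fun j _ => (hx.dσ i j).fun_mul (hx.dτ j l))] at e2
    rw [← e2]
    refine Finset.sum_congr rfl fun j _ => ?_
    rw [pd_mul (hx.dσ i j) (hx.dτ j l)]
    rfl
  have h2 : ∑ i, tau ψ x a i * (∑ j, (S ψ x k i j * tau ψ x j c' + hess ψ x i j * dt ψ x k j c')) = 0 := by
    simp [h1]
  have h3 : ∑ i, tau ψ x a i * (∑ j, (S ψ x k i j * tau ψ x j c' + hess ψ x i j * dt ψ x k j c'))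
      = (∑ i, ∑ j, tau ψ x a i * S ψ x k i j * tau ψ x j c') + dt ψ x k a c' := by
    simp only [Finset.sum_add_distrib, mul_add, Finset.mul_sum]
    congr 1
    · refine Finset.sum_congr rfl fun i _ => Finset.sum_congr rfl fun j _ => by ring
    · rw [Finset.sum_comm]
      have : ∀ j, ∑ i, tau ψ x a i * (hess ψ x i j * dt ψ x k j c') = (1 : Matrix (Fin n) (Fin n) ℝ) a j * dt ψ x k j c' := by
        intro j
        rw [← MM.τσ h x, Matrix.mul_apply, Finset.sum_mul]
        refine Finset.sum_congr rfl fun i _ => by ring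
      simp only [this, Matrix.one_apply, ite_mul, one_mul, zero_mul]
      simp
  rw [h3] at h2
  linarith

/-- `D_a τ_bc` -/
noncomputable def Φ (ψ : E n → ℝ) (x : E n) (a b c : Fin n) : ℝ := ∑ k, tau ψ x a k * dt ψ x k b c

theorem Φ_symm2 (h : MM ψ V c C M) (x : E n) (a b c' : Fin n) : Φ ψ x a b c' = Φ ψ x a c' b := by
  unfold Φ
  refine Finset.sum_congr rfl fun k _ => by rw [dt_symm h]

theorem Φ_symm1 (h : MM ψ V c C M) {x : E n} (hx : Good ψ x) (a b c' : Fin n) : Φ ψ x a b c' = Φ ψ x b a c' := by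
  unfold Φ
  simp only [dt_eq h hx, mul_neg, Finset.sum_neg_distrib, neg_inj, Finset.mul_sum]
  rw [Finset.sum_comm]
  refine Finset.sum_congr rfl fun i _ => Finset.sum_congr rfl fun k _ => Finset.sum_congr rfl fun j _ => ?_
  rw [S_symm1 h hx k i j]
  ring

/-- `div_μ τ = -x` -/
theorem div_tau (h : MM ψ V c C M) (hV : Differentiable ℝ V) {x : E n} (hx : Good ψ x) (a : Fin n) :
    ∑ b, (dt ψ x b a b - tau ψ x a b * pd b V x) = - x a := by
  have hVb : ∀ b, pd b V x = (∑ i, x i * hess ψ x i b) - ∑ i, ∑ j, tau ψ x i j * S ψ x b i j := by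
    intro b
    have h1 := hl (hV x) b
    have hm : (fun t : ℝ => V (x + t • ei b)) = fun t : ℝ => (∑ i, (x + t • ei b) i * pd i ψ (x + t • ei b))
        - ψ (x + t • ei b) - Real.log (hess ψ (x + t • ei b)).det := by
      funext t
      exact h.ma _
    have h2 : HasDerivAt (fun t : ℝ => ∑ i, (x + t • ei b) i * pd i ψ (x + t • ei b))
        (pd b ψ x + ∑ i, x i * hess ψ x i b) 0 := by
      have d1 : DifferentiableAt ℝ (fun z : E n => ∑ i, z i * pd i ψ z) x :=
        DifferentiableAt.fun_sum fun i _ => (diff_coord i).fun_mul (MM.diff_pd h i x)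
      have := hl d1 b
      convert this using 1
      rw [pd_sum _ (fun i _ => (diff_coord i).fun_mul (MM.diff_pd h i x))]
      have : ∀ i, pd b (fun z : E n => z i * pd i ψ z) x = (if i = b then pd i ψ x else 0) + x i * hess ψ x i b := by
        intro i
        rw [pd_mul (diff_coord i) (MM.diff_pd h i x), pd_coord]
        rw [MM.symm h x i b]
        simp only [ite_mul, one_mul, zero_mul]
        rfl
      simp only [this, Finset.sum_add_distrib]
      simp
    have h3 : HasDerivAt (fun t : ℝ => ψ (x + t • ei b)) (pd b ψ x) 0 :=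
      hl (h.C2.differentiable (by norm_num) x) b
    have h4 : HasDerivAt (fun t : ℝ => Real.log (hess ψ (x + t • ei b)).det)
        ((hess ψ (x + (0 : ℝ) • ei b))⁻¹ * (Matrix.of fun i j => S ψ x b i j)).trace 0 := by
      refine id16_log_det (M := fun t => hess ψ (x + t • ei b)) (M' := Matrix.of fun i j => S ψ x b i j)
        (fun i j => hl (hx.dσ i j) b) (MM.det_ne h _)
    have h5 := (h2.sub h3).sub h4
    rw [hm] at h1
    rw [h1.unique h5]
    rw [zero_smul, add_zero]
    have h7 : ((hess ψ x)⁻¹ * (Matrix.of fun i j => S ψ x b i j)).trace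
        = ∑ i, ∑ j, tau ψ x i j * S ψ x b i j := by
      rw [Matrix.trace]
      refine Finset.sum_congr rfl fun i _ => ?_
      rw [Matrix.diag_apply, Matrix.mul_apply]
      refine Finset.sum_congr rfl fun j _ => ?_
      rw [S_symm2 h x b i j]
      rfl
    rw [h7]
    ring
  have e1 : ∑ b, tau ψ x a b * (∑ i, x i * hess ψ x i b) = x a := by
    have : ∀ b, tau ψ x a b * (∑ i, x i * hess ψ x i b) = ∑ i, x i * (tau ψ x a b * hess ψ x b i) := by
      intro b
      rw [Finset.mul_sum]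
      refine Finset.sum_congr rfl fun i _ => ?_
      rw [MM.symm h x i b]
      ring
    simp only [this]
    rw [Finset.sum_comm]
    have h2 : ∀ i, ∑ b, x i * (tau ψ x a b * hess ψ x b i) = x i * (1 : Matrix (Fin n) (Fin n) ℝ) a i := by
      intro i
      rw [← Finset.mul_sum, ← MM.τσ h x, Matrix.mul_apply]
    simp only [h2, Matrix.one_apply]
    simp
  have e2 : ∑ b, dt ψ x b a b = - ∑ b, tau ψ x a b * ∑ i, ∑ j, tau ψ x i j * S ψ x b i j := by
    simp only [dt_eq h hx, Finset.sum_neg_distrib, neg_inj, Finset.mul_sum]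
    -- LHS: ∑ b ∑ i ∑ j τ a i S b i j τ j b ; RHS : ∑ b ∑ i ∑ j τ a b (τ i j S b i j)
    rw [Finset.sum_comm]
    refine Finset.sum_congr rfl fun p _ => ?_
    refine Finset.sum_congr rfl fun q _ => Finset.sum_congr rfl fun r _ => ?_
    rw [S_symm1 h hx q p r, MM.τsymm h x r q]
    ring
  rw [Finset.sum_sub_distrib, e2]
  have e3 : ∑ b, tau ψ x a b * pd b V x = x a - ∑ b, tau ψ x a b * ∑ i, ∑ j, tau ψ x i j * S ψ x b i j := by
    rw [← e1, ← Finset.sum_sub_distrib]
    refine Finset.sum_congr rfl fun b _ => ?_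
    rw [hVb b]
    ring
  rw [e3]
  ring

end MMfacts

end Vale.Agent.P227.M.ID16
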