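import Vale.Agent.P227.M.ID16.Tau

/-! # P227/M/ID16: weighted integration by parts -/

open MeasureTheory Filter Set
open scoped NNReal Topology

namespace Vale.Agent.P227.M.ID16

variable {n : ℕ}

/-- `∫ f e^{-V}` -/
noncomputable def I (V f : E n → ℝ) : ℝ := ∫ x, f x * Real.exp (-V x)

/-- `d*_i f = ∂_i f - V_i f` -/
noncomputable def ds (V : E n → ℝ) (i : Fin n) (f : E n → ℝ) (x : E n) : ℝ := pd i f x - pd i V x * f x

variable {V : E n → ℝ}

theorem lb_w (hV : ContDiff ℝ (⊤ : ℕ∞) V) : LB (fun x => Real.exp (-V x)) :=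
  LB.of_contDiff ((hV.neg.exp).of_le (by exact_mod_cast le_top))

theorem lb_pdV (hV : ContDiff ℝ (⊤ : ℕ∞) V) (i : Fin n) : LB (pd i V) :=
  LB.of_contDiff ((contDiff_pd_top hV i).of_le (by exact_mod_cast le_top))

theorem lb_hessV (hV : ContDiff ℝ (⊤ : ℕ∞) V) (i j : Fin n) : LB (fun x => hess V x i j) :=
  LB.of_contDiff ((contDiff_pd_top (contDiff_pd_top hV j) i).of_le (by exact_mod_cast le_top))

theorem diff_top {f : E n → ℝ} (hf : ContDiff ℝ (⊤ : ℕ∞) f) : Differentiable ℝ f :=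
  hf.differentiable (by simp)

theorem I_int (hV : ContDiff ℝ (⊤ : ℕ∞) V) {f : E n → ℝ} (hf : BC f) :
    Integrable (fun x => f x * Real.exp (-V x)) := (hf.mul_lm (lb_w hV).lm).integrable

theorem I_add (hV : ContDiff ℝ (⊤ : ℕ∞) V) {f g : E n → ℝ} (hf : BC f) (hg : BC g) :
    I V (fun x => f x + g x) = I V f + I V g := by
  unfold I
  rw [← integral_add (I_int hV hf) (I_int hV hg)]
  simp only [add_mul]

theorem I_sub (hV : ContDiff ℝ (⊤ : ℕ∞) V) {f g : E n → ℝ} (hf : BC f) (hg : BC g) :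
    I V (fun x => f x - g x) = I V f - I V g := by
  unfold I
  rw [← integral_sub (I_int hV hf) (I_int hV hg)]
  simp only [sub_mul]

theorem I_neg {f : E n → ℝ} : I V (fun x => - f x) = - I V f := by
  unfold I
  rw [← integral_neg]
  simp only [neg_mul]

theorem I_cmul (r : ℝ) {f : E n → ℝ} : I V (fun x => r * f x) = r * I V f := by
  unfold I
  rw [← integral_const_mul]
  simp only [mul_assoc]

theorem I_sum (hV : ContDiff ℝ (⊤ : ℕ∞) V) {ι : Type*} (s : Finset ι) {f : ι → E n → ℝ}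
    (hf : ∀ i ∈ s, BC (f i)) : I V (fun x => ∑ i ∈ s, f i x) = ∑ i ∈ s, I V (f i) := by
  unfold I
  rw [← integral_finsetSum _ (fun i hi => I_int hV (hf i hi))]
  simp only [Finset.sum_mul]

theorem I_congr {f g : E n → ℝ} (h : f =ᵐ[volume] g) : I V f = I V g := by
  unfold I
  refine integral_congr_ae ?_
  filter_upwards [h] with x hx
  rw [hx]

theorem I_nonneg {f : E n → ℝ} (h : ∀ᵐ x, 0 ≤ f x) : 0 ≤ I V f := by
  unfold I
  refine integral_nonneg_of_ae ?_
  filter_upwards [h] with x hx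
  exact mul_nonneg hx (Real.exp_pos _).le

theorem BC.sum {ι : Type*} (s : Finset ι) {f : ι → E n → ℝ} (hf : ∀ i ∈ s, BC (f i)) :
    BC (fun x => ∑ i ∈ s, f i x) := by
  classical
  induction s using Finset.induction_on with
  | empty =>
    have h0 : (fun x : E n => ∑ i ∈ (∅ : Finset ι), f i x) = fun _ => (0 : ℝ) := by simp
    rw [h0]
    exact ⟨LM.const (n := n) 0, HasCompactSupport.zero⟩
  | insert a s ha ih =>
    simp only [Finset.sum_insert ha]
    exact (hf a (Finset.mem_insert_self a s)).add (ih fun i hi => hf i (Finset.mem_insert_of_mem hi))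

theorem BC.sub {f g : E n → ℝ} (hf : BC f) (hg : BC g) : BC (fun x => f x - g x) := by
  simpa [sub_eq_add_neg] using hf.add hg.neg

theorem LC.sum {ι : Type*} (s : Finset ι) {f : ι → E n → ℝ} (hf : ∀ i ∈ s, LC (f i)) :
    LC (fun x => ∑ i ∈ s, f i x) :=
  ⟨LB.sum s fun i hi => (hf i hi).1, (BC.sum s fun i hi => (hf i hi).bc).2⟩

theorem ds_bc (hV : ContDiff ℝ (⊤ : ℕ∞) V) {f : E n → ℝ} (hf : LC f) (i : Fin n) : BC (ds V i f) :=
  (hf.pd i).sub ((lb_pdV hV i).lm.mul_bc hf.bc)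

theorem pd_w (hV : ContDiff ℝ (⊤ : ℕ∞) V) {f : E n → ℝ} {x : E n} (hf : DifferentiableAt ℝ f x) (i : Fin n) :
    pd i (fun z => f z * Real.exp (-V z)) x = ds V i f x * Real.exp (-V x) := by
  have h1 : DifferentiableAt ℝ (fun z => -V z) x := (diff_top hV x).fun_neg
  rw [pd_mul hf h1.exp, pd_exp h1, pd_neg]
  unfold ds
  ring

/-- (BP0) -/
theorem BP0 (hV : ContDiff ℝ (⊤ : ℕ∞) V) {f : E n → ℝ} (hf : LC f) (i : Fin n) : I V (ds V i f) = 0 := by
  have h := integral_pd (hf.mul_lb (lb_w hV)) i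
  rw [← h]
  unfold I
  refine integral_congr_ae ?_
  filter_upwards [hf.1.ae_diff] with x hx
  rw [pd_w hV hx]

/-- a Lipschitz cut-off -/
theorem exists_cut (R : ℝ) : ∃ χ : E n → ℝ, LC χ ∧ ∀ x, ‖x‖ < R → χ x = 1 := by
  refine ⟨fun x => max 0 (min 1 (R + 1 - ‖x‖)), ⟨?_, ?_⟩, ?_⟩
  · have h1 : LipschitzWith 1 (fun x : E n => R + 1 - ‖x‖) := by
      refine LipschitzWith.of_dist_le_mul fun x y => ?_
      rw [Real.dist_eq, dist_eq_norm, NNReal.coe_one, one_mul]
      have : R + 1 - ‖x‖ - (R + 1 - ‖y‖) = ‖y‖ - ‖x‖ := by ring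
      rw [this, norm_sub_rev]
      exact abs_norm_sub_norm_le y x
    have h2 : LipschitzWith 1 (fun x : E n => min 1 (R + 1 - ‖x‖)) := h1.const_min 1
    exact LB.of_lip (h2.const_max 0)
  · refine HasCompactSupport.intro (isCompact_closedBall (0 : E n) (R + 1)) fun x hx => ?_
    simp only [Metric.mem_closedBall, dist_zero_right, not_le] at hx
    have : min 1 (R + 1 - ‖x‖) ≤ 0 := (min_le_right _ _).trans (by linarith)
    exact max_eq_left this
  · intro x hx
    have h1 : min 1 (R + 1 - ‖x‖) = 1 := min_eq_left (by linarith)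
    show max 0 (min 1 (R + 1 - ‖x‖)) = 1
    rw [h1]
    exact max_eq_right zero_le_one

/-- (BP2) -/
theorem BP2 (hV : ContDiff ℝ (⊤ : ℕ∞) V) {f g : E n → ℝ} (hf : LB f) (hg : LC g) (i k : Fin n) :
    I V (fun x => pd i f x * ds V k g x) = I V (fun x => pd k f x * ds V i g x) := by
  obtain ⟨R, hR⟩ := hg.2.isCompact.isBounded.subset_ball 0
  obtain ⟨χ, hχ, hχ1⟩ := exists_cut (n := n) R
  have hfχ : LC (fun x => f x * χ x) := hf.mul_lc hχ
  have h := integral_pd_pd hfχ (hg.mul_lb (lb_w hV)) i k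
  have hin : ∀ x, ‖x‖ < R → ∀ a, pd a (fun x => f x * χ x) x = pd a f x := by
    intro x hx a
    unfold pd
    have : (fun x => f x * χ x) =ᶠ[𝓝 x] f := by
      have ho : Metric.ball (0 : E n) R ∈ 𝓝 x := Metric.isOpen_ball.mem_nhds (by simpa using hx)
      filter_upwards [ho] with y hy
      rw [hχ1 y (by simpa using hy), mul_one]
    rw [this.fderiv_eq]
  have hout : ∀ x, ¬ ‖x‖ < R → ∀ a, ds V a g x = 0 := by
    intro x hx a
    have hx' : x ∉ tsupport g := fun h => hx (by simpa using hR h)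
    have h0 : g =ᶠ[𝓝 x] 0 := notMem_tsupport_iff_eventuallyEq.1 hx'
    unfold ds pd
    rw [h0.fderiv_eq, h0.eq_of_nhds]
    simp
  have e : ∀ a b : Fin n, (fun x => pd a (fun x => f x * χ x) x * pd b (fun z => g z * Real.exp (-V z)) x)
      =ᵐ[volume] fun x => (pd a f x * ds V b g x) * Real.exp (-V x) := by
    intro a b
    filter_upwards [hg.1.ae_diff] with x hx
    rw [pd_w hV hx]
    by_cases hxR : ‖x‖ < R
    · rw [hin x hxR a]
      ring
    · rw [hout x hxR b]
      ring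
  rw [integral_congr_ae (e i k), integral_congr_ae (e k i)] at h
  exact h

/-- (BP3) -/
theorem BP3 (hV : ContDiff ℝ (⊤ : ℕ∞) V) {a b : E n → ℝ} (ha : LC a) (hb : LC b) (i j : Fin n) :
    I V (fun x => ds V i a x * ds V j b x) = I V (fun x => pd j a x * pd i b x)
      + I V (fun x => hess V x j i * (a x * b x)) := by
  have hVi := lb_pdV hV i
  have hVj := lb_pdV hV j
  have h1 : I V (fun x => ds V i a x * ds V j b x) =
      I V (fun x => pd i a x * ds V j b x) - I V (fun x => pd i V x * a x * ds V j b x) := by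
    rw [← I_sub hV ((ha.pd i).mul_lm (ds_bc hV hb j).1) ((hVi.mul_lc ha).bc.mul_lm (ds_bc hV hb j).1)]
    refine congrArg _ (funext fun x => ?_)
    unfold ds
    ring
  have h2 := BP2 hV ha.1 hb i j
  have h3 := BP0 hV ((hVi.mul_lc ha).mul_lb hb.1) j
  have h4 : I V (ds V j (fun x => pd i V x * a x * b x)) =
      I V (fun x => hess V x j i * (a x * b x)) + I V (fun x => pd i V x * b x * pd j a x)
        + I V (fun x => pd i V x * a x * ds V j b x) := by
    rw [← I_add hV ((lb_hessV hV j i).lm.mul_bc (ha.bc.mul_lm hb.1.lm)) ((hVi.mul_lc hb).bc.mul_lm (ha.pd j).1),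
      ← I_add hV (((lb_hessV hV j i).lm.mul_bc (ha.bc.mul_lm hb.1.lm)).add ((hVi.mul_lc hb).bc.mul_lm (ha.pd j).1))
        ((hVi.mul_lc ha).bc.mul_lm (ds_bc hV hb j).1)]
    refine I_congr ?_
    filter_upwards [ha.1.ae_diff, hb.1.ae_diff] with x hxa hxb
    have hd : DifferentiableAt ℝ (pd i V) x := diff_top (contDiff_pd_top hV i) x
    unfold ds
    rw [pd_mul (hd.fun_mul hxa) hxb, pd_mul hd hxa]
    unfold hess
    ring
  have h5 : I V (fun x => pd j a x * ds V i b x) = I V (fun x => pd j a x * pd i b x)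
      - I V (fun x => pd i V x * b x * pd j a x) := by
    rw [← I_sub hV ((ha.pd j).mul_lm (hb.pd i).1) ((hVi.mul_lc hb).bc.mul_lm (ha.pd j).1)]
    refine congrArg _ (funext fun x => ?_)
    unfold ds
    ring
  rw [h4] at h3
  rw [h1, h2, h5]
  linarith

end Vale.Agent.P227.M.ID16
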